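import Vale.Agent.P273SW.Defs

/-!
# P273S, block W, row CMP

Two families which realize the same curve with the same distinct marks have the same class.
-/

noncomputable section

namespace Vale.Agent.P273SW

open Set Filter Topology Vale.Agent.P273 H95
open Vale.Agent.P273.H183 (tot startS Fam IsMor)
open Vale.Agent.P273.H507 (Ctr SMap Good IsRestr)
open Vale.Agent.P273.H948 (Surf)
open Vale.Agent.P273.H888
open Vale.Agent.P273.H680 (k20)

universe u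

variable {Z : Type u} [TopologicalSpace Z] {cls : ∀ m, Fam L m → (Fin m → ℂ) → Z}

theorem NatMap.restr (hN : NatMap cls) {m : ℕ} {C T : Fam L m} {D : Set (Fin m → ℂ)}
    {ι : T.X → C.X} (h : IsRestr C D T ι) (hDB : D ⊆ C.B) (hC : C.IsStable) {b : Fin m → ℂ}
    (hb : b ∈ D) : cls m T b = cls m C b :=
  hN.mor m m C T id ι hC h.stable (h.isMor hDB) b (h.B ▸ hb)

/-- The class at a good point. -/
theorem NatMap.good (hN : NatMap cls) {m m' : ℕ} {C : Fam L m} {C' : Fam L m'} {X₀ : Surf m}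
    {X₀' : Surf m'} {P : L → (Fin m → ℂ) → X₀.X} {P' : L → (Fin m' → ℂ) → X₀'.X}
    {r : C.X → X₀.X} {r' : C'.X → X₀'.X} {φ : (Fin m' → ℂ) → Fin m → ℂ} {T : X₀'.X → X₀.X}
    (hC : C.IsStable) (hC' : C'.IsStable) (hr : Ctr C X₀ P r) (hr' : Ctr C' X₀' P' r')
    (hφ : ∀ b ∈ C'.B, AnalyticAt ℂ φ b) (hφB : ∀ b ∈ C'.B, φ b ∈ C.B)
    (hT : SMap X₀' X₀ C'.B φ T) (hP : ∀ j, ∀ b ∈ C'.B, T (P' j b) = P j (φ b))
    {b : Fin m' → ℂ} (hb : b ∈ C'.B) (hg' : Good X₀' P' b) (hg : Good X₀ P (φ b)) :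
    cls m' C' b = cls m C (φ b) := by
  set D : Set (Fin m → ℂ) := {b | b ∈ C.B ∧ Good X₀ P b} with hDdef
  have hD : IsOpen D := hr.isOpen_good hC
  have hD1 : IsOpen {b | b ∈ C'.B ∧ Good X₀' P' b} := hr'.isOpen_good hC'
  set D' : Set (Fin m' → ℂ) := {b | b ∈ C'.B ∧ Good X₀' P' b} ∩ φ ⁻¹' D with hD'def
  have hD' : IsOpen D' := by
    rw [isOpen_iff_mem_nhds]
    rintro c ⟨hc, hc'⟩
    exact inter_mem (hD1.mem_nhds hc) ((hφ c hc.1).continuousAt (hD.mem_nhds hc'))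
  have hbD : b ∈ D' := ⟨⟨hb, hg'⟩, hφB b hb, hg⟩
  obtain ⟨T', ι, hι⟩ := H507.exists_restr hC' hD' (fun c hc => hc.1.1) ⟨b, hbD⟩
  have c₀ : C.X := ((hC.2.2.2.2.2 _ (hφB b hb)).1.nonempty).choose
  have hm := H507.exists_isMor hC hr hr' hφ hφB hT hP hD (fun c hc => hc.1) (fun c hc => hc.2)
    (D' := D') (fun c hc => hc.1.1) (fun c hc => hc.1.2) (fun c hc => hc.2) hι c₀
  rw [← hN.restr hι (fun c hc => hc.1.1) hC' hbD]
  exact hN.mor m m' C T' φ _ hC hι.stable hm b (hι.B ▸ hbD)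

section compare

variable {n m : ℕ} {M M₀ : Type} [NormedAddCommGroup M] [NormedSpace ℂ M]
  [NormedAddCommGroup M₀] [NormedSpace ℂ M₀]
  {k : (Fin n → ℂ) ≃L[ℂ] M} {ψ : M → E} {S : L → Bool} {σ : M → L → ℂ} {C : Fam L n}
  {k₀ : (Fin m → ℂ) ≃L[ℂ] M₀} {ψ₀ : M₀ → E} {S₀ : L → Bool} {σ₀ : M₀ → L → ℂ} {C₀ : Fam L m}

/-- **Comparison of two families over a map of the bases.** -/
theorem NatMap.compare (hN : NatMap cls) (R : Real k ψ S σ C) (R₀ : Real k₀ ψ₀ S₀ σ₀ C₀)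
    {χ : M → M₀} {b : Fin n → ℂ} (hp : b ∈ C.B) (hp₀ : k₀.symm (χ (k b)) ∈ C₀.B)
    (hχ : AnalyticAt ℂ χ (k b))
    (he : ∀ᶠ q in 𝓝 (k b), (ψ q).1 = (ψ₀ (χ q)).1)
    (hs : ∀ᶠ q in 𝓝 (k b), ∀ j,
      Same (S j) ((ψ q).2 j) (σ q j) (S₀ j) ((ψ₀ (χ q)).2 j) (σ₀ (χ q) j))
    (hd : Dist S (ψ (k b)) (σ (k b))) : cls n C b = cls m C₀ (k₀.symm (χ (k b))) := by
  set φ : (Fin n → ℂ) → Fin m → ℂ := fun c => k₀.symm (χ (k c)) with hφdef
  have hkφ : ∀ c, k₀ (φ c) = χ (k c) := fun c => k₀.apply_symm_apply _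
  have hφa : AnalyticAt ℂ φ b :=
    ((k₀.symm : M₀ →L[ℂ] (Fin m → ℂ)).analyticAt _).comp
      (AnalyticAt.comp (g := χ) (f := fun c => k c) hχ ((k : (Fin n → ℂ) →L[ℂ] M).analyticAt _))
  have hk : Tendsto (fun c => k c) (𝓝 b) (𝓝 (k b)) := k.continuous.continuousAt
  have hev : ∀ᶠ c in 𝓝 b, c ∈ C.B ∧ AnalyticAt ℂ φ c ∧ φ c ∈ C₀.B ∧
      (ψ (k c)).1 = (ψ₀ (χ (k c))).1 ∧
      ∀ j, Same (S j) ((ψ (k c)).2 j) (σ (k c) j) (S₀ j) ((ψ₀ (χ (k c))).2 j) (σ₀ (χ (k c)) j) := by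
    filter_upwards [R.stable.1.mem_nhds hp, hφa.eventually_analyticAt,
      hφa.continuousAt.eventually (R₀.stable.1.mem_nhds hp₀),
      hk.eventually he, hk.eventually hs] with c h1 h2 h3 h4 h5
    exact ⟨h1, h2, h3, h4, h5⟩
  obtain ⟨D, hD1, hD, hbD⟩ := eventually_nhds_iff.1 hev
  have hDB : D ⊆ C.B := fun c hc => (hD1 c hc).1
  obtain ⟨T, ι, hι⟩ := H507.exists_restr R.stable hD hDB ⟨b, hbD⟩
  obtain ⟨W, hW, ha, hK, hNe, r, hBW, hr⟩ := R.ctr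
  obtain ⟨W₀, hW₀, ha₀, hK₀, hNe₀, r₀, hBW₀, hr₀⟩ := R₀.ctr
  have hr' := ctr_restr hr hDB hι
  have hDW : D ⊆ W := hDB.trans hBW
  have hφW : ∀ c ∈ D, φ c ∈ W₀ := fun c hc => hBW₀ (hD1 c hc).2.2.1
  have heq : ∀ c ∈ D, (ψ₀ (k₀ (φ c))).1 = (ψ (k c)).1 := fun c hc => by
    rw [hkφ]; exact (hD1 c hc).2.2.2.1.symm
  have hTB : T.B = D := hι.B
  have hSM := sMap_smap (a := fun q => (ψ (k q)).1) (a₀ := fun q => (ψ₀ (k₀ q)).1)
    (φ := φ) (hW := hW) (ha := ha) (hK := hK) (hW₀ := hW₀) (ha₀ := ha₀) (hK₀ := hK₀) hD hDW hφW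
    heq (fun c hc => (hD1 c hc).2.1)
  have hpos : ∀ j, ∀ c ∈ D, (smap φ (posP (S j) (fun q => (ψ (k q)).2 j) (fun q => σ (k q) j) c :
      tot W fun q => (ψ (k q)).1) : tot W₀ fun q => (ψ₀ (k₀ q)).1) =
      posP (S₀ j) (fun q => (ψ₀ (k₀ q)).2 j) (fun q => σ₀ (k₀ q) j) (φ c) := by
    intro j c hc
    refine smap_posP (a := fun q => (ψ (k q)).1) (a₀ := fun q => (ψ₀ (k₀ q)).1) hDW hφW heq hc
      (R.sq j c (hDB hc)) (R₀.sq j _ (hD1 c hc).2.2.1) ?_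
    simp only [hkφ]
    exact (hD1 c hc).2.2.2.2 j
  have hgood : Good (startS W (fun q => (ψ (k q)).1) hW ha hK)
      (fun j => posP (S j) (fun q => (ψ (k q)).2 j) (fun q => σ (k q) j)) b := by
    refine ⟨fun j => smooth_posP hW ha hK (hDW hbD) (R.sq j b hp) (hd.1 j).2, fun i j e => ?_⟩
    by_contra hij
    exact hd.2 i j hij ((posP_eq_iff (a := fun q => (ψ (k q)).1) (hDW hbD) (R.sq i b hp)
      (R.sq j b hp)).1 e)
  have hgood₀ : Good (startS W₀ (fun q => (ψ₀ (k₀ q)).1) hW₀ ha₀ hK₀)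
      (fun j => posP (S₀ j) (fun q => (ψ₀ (k₀ q)).2 j) (fun q => σ₀ (k₀ q) j)) (φ b) := by
    refine ⟨fun j => smooth_posP hW₀ ha₀ hK₀ (hφW b hbD) (R₀.sq j _ (hD1 b hbD).2.2.1) ?_,
      fun i j e => ?_⟩
    · have h1 := (hD1 b hbD).2.2.2.2 j
      change σ₀ (k₀ (φ b)) j ≠ 0
      rw [hkφ]
      exact same_ne h1 (hd.1 j).2
    · refine hgood.2 i j ?_
      have e' := e
      simp only at e'
      rw [← hpos i b hbD, ← hpos j b hbD] at e'
      have hpr : ∀ j, (posP (S j) (fun q => (ψ (k q)).2 j) (fun q => σ (k q) j) b :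
          tot W fun q => (ψ (k q)).1) ∈ (H183.pr ⁻¹' {b} : Set (tot W fun q => (ψ (k q)).1)) :=
        fun j => pr_posP (a := fun q => (ψ (k q)).1) (z := fun q => (ψ (k q)).2 j)
          (v := fun q => σ (k q) j) (hDW hbD) (R.sq j b hp)
      exact (bijOn_smap hDW hφW heq hbD).injOn (hpr i) (hpr j) e'
  have hkey := hN.good (C := C₀) (C' := T) (b := b) (φ := φ) (T := smap φ) R₀.stable
    hι.stable hr₀ hr' (fun c hc => (hD1 c (hTB ▸ hc)).2.1)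
    (fun c hc => (hD1 c (hTB ▸ hc)).2.2.1) (by rw [hTB]; exact hSM)
    (fun j c hc => hpos j c (hTB ▸ hc)) (hTB.symm ▸ hbD) hgood hgood₀
  rw [← hN.restr hι hDB R.stable hbD]
  exact hkey

theorem cmp_same_trans {s s' s'' : Bool} {z v z' v' z'' v'' : ℂ} (h : Same s z v s' z' v')
    (h' : Same s' z' v' s'' z'' v'') : Same s z v s'' z'' v'' :=
  ((ept_eq_iff (m := 0) (b := 0) (b' := 0)).1
    (((ept_eq_iff (m := 0) (b := 0) (b' := 0)).2 ⟨rfl, h⟩).trans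
      ((ept_eq_iff (m := 0) (b := 0) (b' := 0)).2 ⟨rfl, h'⟩))).2

theorem cmp_same_uniq {s : Bool} {z v z' v' : ℂ} (h : Same s z v s z' v') : z = z' ∧ v = v' := by
  unfold Same at h
  rwa [if_pos rfl] at h

/-- Comparison with a standard family, in any charts. -/
theorem NatMap.std (hN : NatMap cls) (R : Real k ψ S σ C) {b : Fin n → ℂ} (hb : b ∈ C.B)
    (hd : Dist S (ψ (k b)) (σ (k b))) {S₁ : L → Bool} {e : E} {v : L → ℂ} {C₁ : Fam L 20}
    (h₁ : Rlz S₁ e v C₁) (he : (ψ (k b)).1 = e.1)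
    (hs : ∀ j, Same (S j) ((ψ (k b)).2 j) (σ (k b) j) (S₁ j) (e.2 j) (v j)) :
    cls n C b = cls 20 C₁ (k20.symm e) := by
  obtain ⟨σ₁, R₁, hp₁, hσ⟩ := h₁
  have hb' : k.symm (k b) ∈ C.B := by rwa [k.symm_apply_apply]
  have hψ := R.an hb'
  have h0 : ∀ j, S j ≠ S₁ j → (ψ (k b)).2 j ≠ 0 := by
    intro j hj h
    have h1 := hs j
    unfold Same at h1
    rw [if_neg hj, h, zero_mul] at h1
    exact zero_ne_one h1.1
  have h1 : ∀ j, (H95.flip S S₁ (ψ (k b))).2 j = e.2 j ∧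
      flipv S S₁ (ψ (k b)).2 (σ (k b)) j = v j := fun j =>
    cmp_same_uniq (cmp_same_trans (Same.symm' (flip_same (h0 j))) (hs j))
  have h2 : H95.flip S S₁ (ψ (k b)) = e := Prod.ext he (funext fun j => (h1 j).1)
  have hfl : AnalyticAt ℂ (fun q => H95.flip S S₁ (ψ q)) (k b) :=
    AnalyticAt.comp (g := H95.flip S S₁) (analyticAt_flip h0) hψ
  have hz : ∀ j, ContinuousAt (fun q => (ψ q).2 j) (k b) := fun j =>
    ContinuousAt.comp (g := fun x : E => x.2 j)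
      ((continuous_apply j).comp continuous_snd).continuousAt hψ.continuousAt
  have hne : ∀ᶠ q in 𝓝 (k b), ∀ j, S j ≠ S₁ j → (ψ q).2 j ≠ 0 := by
    refine eventually_all.2 fun j => ?_
    by_cases hj : S j = S₁ j
    · exact Eventually.of_forall fun p h => absurd hj h
    · exact ((hz j).eventually_ne (h0 j hj)).mono fun q hq _ => hq
  have hp₂ : k20.symm (H95.flip S S₁ (ψ (k b))) ∈ C₁.B := by rwa [h2]
  have hsame : ∀ᶠ q in 𝓝 (k b), ∀ j,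
      flipv S S₁ (ψ q).2 (σ q) j = σ₁ (H95.flip S S₁ (ψ q)) j := by
    rw [eventually_all]
    intro j
    have c1 : ContinuousAt (fun q => σ₁ (H95.flip S S₁ (ψ q)) j) (k b) :=
      ContinuousAt.comp (g := fun x => σ₁ x j) (f := fun q => H95.flip S S₁ (ψ q))
        (R₁.anσ hp₂ j).continuousAt hfl.continuousAt
    have c2 : ContinuousAt (fun q => flipv S S₁ (ψ q).2 (σ q) j) (k b) := by
      have hc := (R.anσ hb' j).continuousAt
      unfold flipv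
      by_cases hj : S j = S₁ j
      · simp only [hj, if_true]; exact hc
      · simp only [hj, if_false]
        exact hc.mul (((hz j).inv₀ (h0 j hj)).pow 3)
    refine eq_of_sq c2 c1 (by rw [h2, hσ]; exact (h1 j).2) ?_ ?_
    · rw [(h1 j).2]
      exact same_ne (hs j) (hd.1 j).2
    · filter_upwards [R.open'.mem_nhds hb', hfl.continuousAt.eventually (R₁.open'.mem_nhds hp₂),
        hne] with q h3 h4 h5
      rw [R₁.sq' h4 j]
      exact H894.sq_flip h5 (fun j => R.sq' h3 j) j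
  rw [← h2]
  refine hN.compare R R₁ (χ := fun q => H95.flip S S₁ (ψ q)) hb hp₂ hfl
    (Eventually.of_forall fun q => rfl) ?_ hd
  filter_upwards [hsame, hne] with q k1 k2 j
  rw [← k1 j]
  exact flip_same (k2 j)

end compare

/-- **CMP.** -/
theorem cmp : CMP.{u} := by
  intro Z _ cls hN n n' M M' _ _ _ _ k k' ψ ψ' S S' σ σ' C C' R R' b hb b' hb' he hs hd
  obtain ⟨C₁, h₁⟩ := a1 S (ψ (k b)) (σ (k b)) (R.mem_K6 hb) hd.1 hd.sep
  have hd' : Dist S' (ψ' (k' b')) (σ' (k' b')) :=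
    ⟨fun j => ⟨R'.sq j b' hb', same_ne (hs j) (hd.1 j).2⟩, fun i j hij h => hd.2 i j hij
      (cmp_same_trans (cmp_same_trans (hs i) h) (Same.symm' (hs j)))⟩
  rw [hN.std R hb hd h₁ rfl fun j => same_refl _ _ _,
    hN.std R' hb' hd' h₁ he.symm fun j => Same.symm' (hs j)]

end Vale.Agent.P273SW

end
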