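import Vale.Agent.P273SW.Defs

/-!
# P273S, block W: the embedding does not depend on the charts; smoothness of its coordinates
-/

noncomputable section

namespace Vale.Agent.P273SW

open Set Filter Topology Vale.Agent.P273 H95
open Vale.Agent.P273.H681 (C6)
open Vale.Agent.P273.H888 (ept)
open scoped ContDiff ComplexConjugate

/-! ### Change of charts -/

theorem same_pt4 {s s' : Bool} {z v z' v' : ℂ} (h : Same s z v s' z' v') :
    pt4 s z v = pt4 s' z' v' := by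
  unfold pt4
  rw [H888.ept_eq_iff.2 ⟨rfl, h⟩]

theorem same_xx {s s' : Bool} {z v z' v' : ℂ} (h : Same s z v s' z' v') :
    xx s z = xx s' z' := by
  cases s <;> cases s' <;> simp only [Same, xx, if_true, Bool.false_eq_true, if_false,
    Bool.true_eq_false] at h ⊢
  · exact h.1
  · exact eq_inv_of_mul_eq_one_left h.1
  · exact (eq_inv_of_mul_eq_one_right h.1).symm
  · rw [h.1]

theorem same_yy {s s' : Bool} {z v z' v' : ℂ} (h : Same s z v s' z' v') :
    yy s z v = yy s' z' v' := by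
  cases s <;> cases s' <;> simp only [Same, yy, if_true, Bool.false_eq_true, if_false,
    Bool.true_eq_false] at h ⊢
  · exact h.2
  · have h0 : z' ≠ 0 := right_ne_zero_of_mul_eq_one h.1
    rw [h.2]
    field_simp
  · have h0 : z ≠ 0 := left_ne_zero_of_mul_eq_one h.1
    have h1 : z' = z⁻¹ := eq_inv_of_mul_eq_one_right h.1
    rw [h.2, h1]
    field_simp
  · rw [h.1, h.2]

theorem egs : EGS := by
  intro S S' e e' v v' h1 h2
  have hp : ∀ j, pt4 (S j) (e.2 j) (v j) = pt4 (S' j) (e'.2 j) (v' j) := fun j => same_pt4 (h2 j)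
  have hx : ∀ j, xx (S j) (e.2 j) = xx (S' j) (e'.2 j) := fun j => same_xx (h2 j)
  have hy : ∀ j, yy (S j) (e.2 j) (v j) = yy (S' j) (e'.2 j) (v' j) := fun j => same_yy (h2 j)
  refine Prod.ext h1 (Prod.ext (funext hp) ?_)
  funext i j
  simp only [eG, pair, cc, uu, uv, hp, hx, hy, h1]

/-! ### Smoothness -/

section smooth

variable {M : Type} [NormedAddCommGroup M] [NormedSpace ℝ M] {p : M}

theorem sm_conj {f : M → ℂ} (hf : ContDiffAt ℝ ∞ f p) :
    ContDiffAt ℝ ∞ (fun q => conj (f q)) p :=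
  (Complex.conjCLE.contDiff.contDiffAt).comp p hf

theorem sm_pt4 (s : Bool) {z v : M → ℂ} (hz : ContDiffAt ℝ ∞ z p) (hv : ContDiffAt ℝ ∞ v p) :
    ContDiffAt ℝ ∞ (fun q => pt4 s (z q) (v q)) p := by
  have hc := sm_conj hz
  have hn : ContDiffAt ℝ ∞ (fun q => 1 + z q * conj (z q)) p := contDiffAt_const.add (hz.mul hc)
  have h0 : 1 + z p * conj (z p) ≠ 0 := H183.nn _
  have hi : ContDiffAt ℝ ∞ (fun q => (1 + z q * conj (z q))⁻¹) p := hn.inv h0
  have hi3 : ContDiffAt ℝ ∞ (fun q => ((1 + z q * conj (z q)) ^ 3)⁻¹) p :=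
    (hn.pow 3).inv (pow_ne_zero 3 h0)
  cases s
  · simp only [pt4, ept, Bool.false_eq_true, if_false, H183.emb, div_eq_mul_inv]
    exact (contDiffAt_const.mul hi).prodMk ((hc.mul hi).prodMk ((hv.mul hi3).prodMk
      ((hv.mul (hc.pow 3)).mul hi3)))
  · simp only [pt4, ept, if_true, H183.emb', div_eq_mul_inv]
    exact ((hz.mul hc).mul hi).prodMk ((hz.mul hi).prodMk (((hv.mul (hc.pow 3)).mul hi3).prodMk
      (hv.mul hi3)))

theorem sm_normSq {f : M → ℂ} (hf : ContDiffAt ℝ ∞ f p) :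
    ContDiffAt ℝ ∞ (fun q => Complex.normSq (f q)) p := by
  have h1 : ContDiffAt ℝ ∞ (fun q => (f q).re) p := Complex.reCLM.contDiff.contDiffAt.comp p hf
  have h2 : ContDiffAt ℝ ∞ (fun q => (f q).im) p := Complex.imCLM.contDiff.contDiffAt.comp p hf
  simp only [Complex.normSq_apply]
  exact (h1.mul h1).add (h2.mul h2)

/-- The argument of the cut-off. -/
def cutA (a : C6) (P : C4) : ℝ := P.1.re * (3 + 2 * ∑ i, Complex.normSq (a i)) - 1 / 2

theorem cut_eq (a : C6) (P : C4) : cut a P = expNegInvGlue (cutA a P) := rfl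

theorem sm_cutA {a : M → C6} {P : M → C4} (ha : ContDiffAt ℝ ∞ a p) (hP : ContDiffAt ℝ ∞ P p) :
    ContDiffAt ℝ ∞ (fun q => cutA (a q) (P q)) p := by
  have h1 : ContDiffAt ℝ ∞ (fun q => (P q).1.re) p :=
    Complex.reCLM.contDiff.contDiffAt.comp p hP.fst
  have h2 : ContDiffAt ℝ ∞ (fun q => ∑ i, Complex.normSq (a q i)) p :=
    ContDiffAt.sum fun i _ => sm_normSq (contDiffAt_pi.1 ha i)
  exact (h1.mul (contDiffAt_const.add (contDiffAt_const.mul h2))).sub contDiffAt_const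

theorem sm_cut {a : M → C6} {P : M → C4} (ha : ContDiffAt ℝ ∞ a p) (hP : ContDiffAt ℝ ∞ P p) :
    ContDiffAt ℝ ∞ (fun q => cut (a q) (P q)) p :=
  (expNegInvGlue.contDiff.contDiffAt).comp p (sm_cutA ha hP)

theorem sm_q2 {u : M → ℂ × ℂ} (hu : ContDiffAt ℝ ∞ u p) :
    ContDiffAt ℝ ∞ (fun q => q2 (u q)) p :=
  (hu.fst.mul (sm_conj hu.fst)).prodMk ((hu.fst.mul (sm_conj hu.snd)).prodMk
    (hu.snd.mul (sm_conj hu.snd)))

theorem sm_n2 {u : M → ℂ × ℂ} (hu : ContDiffAt ℝ ∞ u p) :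
    ContDiffAt ℝ ∞ (fun q => n2 (u q)) p :=
  (hu.fst.mul (sm_conj hu.fst)).add (hu.snd.mul (sm_conj hu.snd))

theorem n2_eq (u : ℂ × ℂ) : n2 u = ((Complex.normSq u.1 + Complex.normSq u.2 : ℝ) : ℂ) := by
  rw [n2, Complex.mul_conj, Complex.mul_conj]
  push_cast
  rfl

theorem n2_add_eq_zero {u u' : ℂ × ℂ} (h : n2 u + n2 u' = 0) : u = 0 ∧ u' = 0 := by
  rw [n2_eq, n2_eq, ← Complex.ofReal_add, Complex.ofReal_eq_zero] at h
  have h1 := Complex.normSq_nonneg u.1
  have h2 := Complex.normSq_nonneg u.2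
  have h3 := Complex.normSq_nonneg u'.1
  have h4 := Complex.normSq_nonneg u'.2
  exact ⟨Prod.ext (Complex.normSq_eq_zero.1 (by linarith)) (Complex.normSq_eq_zero.1 (by linarith)),
    Prod.ext (Complex.normSq_eq_zero.1 (by linarith)) (Complex.normSq_eq_zero.1 (by linarith))⟩

theorem n2_ne {u : ℂ × ℂ} (h : u ≠ 0) : n2 u ≠ 0 := by
  intro e
  have h1 : n2 u + n2 u = 0 := by rw [e, add_zero]
  exact h (n2_add_eq_zero h1).1

theorem sm_pr1 {u : M → ℂ × ℂ} (hu : ContDiffAt ℝ ∞ u p) (h0 : u p ≠ 0) :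
    ContDiffAt ℝ ∞ (fun q => pr1 (u q)) p :=
  ((sm_n2 hu).inv (n2_ne h0)).smul (sm_q2 hu)

theorem sm_pr2 {u u' : M → ℂ × ℂ} (hu : ContDiffAt ℝ ∞ u p) (hu' : ContDiffAt ℝ ∞ u' p)
    (h0 : n2 (u p) + n2 (u' p) ≠ 0) : ContDiffAt ℝ ∞ (fun q => pr2 (u q) (u' q)) p :=
  (((sm_n2 hu).add (sm_n2 hu')).inv h0).smul ((sm_q2 hu).add (sm_q2 hu'))

theorem sm_dd {a : M → C6} {x y : M → ℂ} (ha : ContDiffAt ℝ ∞ a p) (hx : ContDiffAt ℝ ∞ x p)
    (hy : ContDiffAt ℝ ∞ y p) : ContDiffAt ℝ ∞ (fun q => dd (a q) (x q) (y q)) p := by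
  unfold dd
  exact (ContDiffAt.sum fun k _ => (hx.pow _).mul (hy.pow _)).add
    (ContDiffAt.sum fun i _ => (contDiffAt_pi.1 ha i).mul
      (ContDiffAt.sum fun k _ => (hx.pow _).mul (hy.pow _)))

theorem sm_xx {s : Bool} {z : M → ℂ} (hz : ContDiffAt ℝ ∞ z p) (h : s = true → z p ≠ 0) :
    ContDiffAt ℝ ∞ (fun q => xx s (z q)) p := by
  cases s
  · simp only [xx, Bool.false_eq_true, if_false]
    exact hz
  · simp only [xx, if_true]
    exact hz.inv (h rfl)

theorem sm_yy {s : Bool} {z v : M → ℂ} (hz : ContDiffAt ℝ ∞ z p) (hv : ContDiffAt ℝ ∞ v p)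
    (h : s = true → z p ≠ 0) : ContDiffAt ℝ ∞ (fun q => yy s (z q) (v q)) p := by
  cases s
  · simp only [yy, Bool.false_eq_true, if_false]
    exact hv
  · simp only [yy, if_true, div_eq_mul_inv]
    exact hv.mul ((hz.pow 3).inv (pow_ne_zero 3 (h rfl)))

end smooth

theorem dd_self (a : C6) (x : ℂ) : dd a x x = sx1 a x := by
  simp only [dd, sx1, Fin.sum_univ_six, Finset.sum_range_succ, Finset.range_zero,
    Finset.sum_empty]
  simp [Finset.sum_range_succ]
  ring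

theorem dd_mul (a : C6) (x y : ℂ) : (x - y) * dd a x y = sx a x - sx a y := by
  simp only [dd, sx, Fin.sum_univ_six, Finset.sum_range_succ, Finset.range_zero,
    Finset.sum_empty]
  simp [Finset.sum_range_succ]
  ring

theorem dd_symm (a : C6) (x y : ℂ) : dd a x y = dd a y x := by
  simp only [dd, Fin.sum_univ_six, Finset.sum_range_succ, Finset.range_zero,
    Finset.sum_empty]
  simp [Finset.sum_range_succ]
  ring

theorem yy_ne {s : Bool} {z v : ℂ} (hv : v ≠ 0) (h : s = true → z ≠ 0) : yy s z v ≠ 0 := by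
  cases s
  · simpa only [yy, Bool.false_eq_true, if_false] using hv
  · simpa only [yy, if_true] using div_ne_zero hv (pow_ne_zero 3 (h rfl))

/-- At infinity the argument of the cut-off is negative. -/
theorem cutA_inf (a : C6) (v : ℂ) : cutA a (pt4 true 0 v) < 0 := by
  simp [cutA, pt4, ept, H183.emb']

/-- The two vectors of a pair are not both zero. -/
theorem n2_pair_ne {S : L → Bool} {e : E} {v : L → ℂ} {i j : L}
    (hi : S i = true → e.2 i ≠ 0) (hj : S j = true → e.2 j ≠ 0)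
    (h : v i ≠ 0 ∨ v j ≠ 0 ∨ (S i = false ∧ S j = false ∧
      (e.2 i ≠ e.2 j ∨ sx1 e.1 (e.2 i) ≠ 0))) :
    n2 (uu S e v i j) + n2 (uv S e v i j) ≠ 0 := by
  intro h0
  obtain ⟨h1, h2⟩ := n2_add_eq_zero h0
  have a1 : yy (S i) (e.2 i) (v i) + yy (S j) (e.2 j) (v j) = 0 := congrArg Prod.fst h1
  have a2 : xx (S i) (e.2 i) - xx (S j) (e.2 j) = 0 := congrArg Prod.snd h1
  have a3 : dd e.1 (xx (S i) (e.2 i)) (xx (S j) (e.2 j)) = 0 := congrArg Prod.fst h2
  have a4 : yy (S i) (e.2 i) (v i) - yy (S j) (e.2 j) (v j) = 0 := congrArg Prod.snd h2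
  rcases h with h | h | ⟨h3, h4, h⟩
  · exact yy_ne h hi (by linear_combination (a1 + a4) / 2)
  · exact yy_ne h hj (by linear_combination (a1 - a4) / 2)
  · simp only [h3, h4, xx, Bool.false_eq_true, if_false] at a2 a3
    have a5 : e.2 i = e.2 j := sub_eq_zero.1 a2
    rcases h with h | h
    · exact h a5
    · rw [← a5, dd_self] at a3
      exact h a3

theorem egd : EGD := by
  intro M _ _ S ψ σ p hψ hσ
  have hz : ∀ j, ContDiffAt ℝ ∞ (fun q => (ψ q).2 j) p := fun j => contDiffAt_pi.1 hψ.snd j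
  have hv : ∀ j, ContDiffAt ℝ ∞ (fun q => σ q j) p := fun j => contDiffAt_pi.1 hσ j
  have hP : ∀ j, ContDiffAt ℝ ∞ (fun q => pt4 (S j) ((ψ q).2 j) (σ q j)) p :=
    fun j => sm_pt4 _ (hz j) (hv j)
  have hc : ∀ i j, ContDiffAt ℝ ∞ (fun q => cc S (ψ q) (σ q) i j) p :=
    fun i j => (sm_cut hψ.fst (hP i)).mul (sm_cut hψ.fst (hP j))
  refine ⟨hP, hc, fun i j h => ?_⟩
  by_cases hij : i = j
  · simp only [pair, hij, if_true]
    exact contDiffAt_const
  simp only [pair, hij, if_false]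
  have hinf : ∀ l, S l = true → (ψ p).2 l = 0 →
      ∀ᶠ q in 𝓝 p, cut (ψ q).1 (pt4 (S l) ((ψ q).2 l) (σ q l)) = 0 := by
    intro l h1 h2
    have h3 : cutA (ψ p).1 (pt4 (S l) ((ψ p).2 l) (σ p l)) < 0 := by
      rw [h1, h2]
      exact cutA_inf _ _
    filter_upwards [(sm_cutA hψ.fst (hP l)).continuousAt.eventually (gt_mem_nhds h3)] with q hq
    exact expNegInvGlue.zero_of_nonpos hq.le
  by_cases hi : S i = true → (ψ p).2 i ≠ 0
  · by_cases hj : S j = true → (ψ p).2 j ≠ 0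
    · have hxi := sm_xx (hz i) hi
      have hxj := sm_xx (hz j) hj
      have hyi := sm_yy (hz i) (hv i) hi
      have hyj := sm_yy (hz j) (hv j) hj
      exact (hc i j).smul (sm_pr2 ((hyi.add hyj).prodMk (hxi.sub hxj))
        ((sm_dd hψ.fst hxi hxj).prodMk (hyi.sub hyj)) (n2_pair_ne hi hj h))
    · push Not at hj
      refine (contDiffAt_const (c := (0 : C3))).congr_of_eventuallyEq ?_
      filter_upwards [hinf j hj.1 hj.2] with q hq
      rw [cc, hq, mul_zero, zero_smul]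
  · push Not at hi
    refine (contDiffAt_const (c := (0 : C3))).congr_of_eventuallyEq ?_
    filter_upwards [hinf i hi.1 hi.2] with q hq
    rw [cc, hq, zero_mul, zero_smul]

end Vale.Agent.P273SW

end
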