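import Vale.Agent.P273SW.UAn

/-!
# P273S, block W, row UDEN: the generic points are dense near the base point of a chart
-/

noncomputable section

namespace Vale.Agent.P273SW

open Set Filter Topology Vale.Agent.P273 H95
open Vale.Agent.P273.H888 (Real Dist Far ept)

variable {R : Region}

/-- The condition that two marks have distinct coordinates. -/
def gU2 (R : Region) (S : L → Bool) (i j : L) (p : MU R) : ℂ :=
  if i = j then 1 else if S i = S j then posU R p i - posU R p j else posU R p i * posU R p j - 1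

/-- The polynomials of the conditions for generic points. -/
def gU (R : Region) (S : L → Bool) : R.Gap ⊕ L ⊕ L ⊕ (L × L) → MU R → ℂ
  | .inl g => fun p => p.1.1 g
  | .inr (.inl j) => fun p => posU R p j
  | .inr (.inr (.inl j)) => fun p => H375.gfX R j p.1
  | .inr (.inr (.inr q)) => gU2 R S q.1 q.2

theorem an_gU (S : L → Bool) (i : R.Gap ⊕ L ⊕ L ⊕ (L × L)) (p : MU R) :
    AnalyticAt ℂ (gU R S i) p := by
  rcases i with g | j | j | q
  · exact an_fst (f := fun q : R.Sp => q.1 g) (H724.an_gap g)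
  · exact an_posU j p
  · exact an_fst (f := H375.gfX R j) (H375.an_gf R S (.inr (.inr (.inr (.inl j)))) p.1)
  · change AnalyticAt ℂ (gU2 R S q.1 q.2) p
    unfold gU2
    split_ifs
    · exact analyticAt_const
    · exact (an_posU _ p).sub (an_posU _ p)
    · exact ((an_posU _ p).mul (an_posU _ p)).sub analyticAt_const

theorem exists_gU_ne {S : L → Bool} (hS : Far R S) (i : R.Gap ⊕ L ⊕ L ⊕ (L × L)) :
    ∃ p, gU R S i p ≠ 0 := by
  rcases i with g | j | j | q
  · obtain ⟨p, hp⟩ := H375.exists_gf_ne R hS (.inl g)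
    exact ⟨(p, ctr), hp⟩
  · obtain ⟨p, hp⟩ := H375.exists_gf_ne R hS (.inr (.inr (.inl j)))
    refine ⟨(p, ctr), ?_⟩
    change posU R (p, ctr) j ≠ 0
    rw [posU_ctr]
    exact hp
  · obtain ⟨p, hp⟩ := H375.exists_gf_ne R hS (.inr (.inr (.inr (.inl j))))
    exact ⟨(p, ctr), hp⟩
  · obtain ⟨p, hp⟩ := H375.exists_gf_ne R hS (.inr (.inr (.inr (.inr q))))
    refine ⟨(p, ctr), ?_⟩
    change gU2 R S q.1 q.2 (p, ctr) ≠ 0
    unfold gU2
    simp only [posU_ctr]
    exact hp

/-- The points where no condition vanishes are dense. -/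
theorem dense_gU {S : L → Bool} (hS : Far R S) {W : Set (MU R)} (hW : IsOpen W) :
    W ⊆ closure {p | p ∈ W ∧ ∀ i, gU R S i p ≠ 0} :=
  (H375.entire_std (𝕜 := ℂ) (P := gU R S) hW (fun i p _ => an_gU S i p)
    fun i => exists_gU_ne hS i).2

theorem xx_ne {s s' : Bool} {z z' : ℂ} (h0 : z ≠ 0) (h0' : z' ≠ 0)
    (h : (if s = s' then z - z' else z * z' - 1) ≠ 0) : xx s z ≠ xx s' z' := by
  intro e
  apply h
  cases s <;> cases s'
  · simp only [xx, Bool.false_eq_true, if_false] at e
    simp [e]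
  · simp only [xx, Bool.false_eq_true, if_false, if_true] at e
    simp [e, h0']
  · simp only [xx, Bool.false_eq_true, if_false, if_true] at e
    simp [← e, h0]
  · simp only [xx, if_true, inv_inj] at e
    simp [e]

/-- **UDEN.** -/
theorem uden : UDEN := by
  intro D h
  obtain ⟨W, hW1, hW, hcW⟩ := eventually_nhds_iff.1 (uan D h)
  filter_upwards [hW.mem_nhds hcW] with p hp
  refine closure_mono ?_ (dense_gU h.far hW hp)
  rintro q ⟨hq, hg⟩
  obtain ⟨-, a1, -, -, a4, a5, a6⟩ := hW1 q hq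
  have hpos : ∀ j, posU D.R q j ≠ 0 := fun j => hg (.inr (.inl j))
  refine ⟨fun x hx => ?_, fun j => ⟨a4 j, ?_⟩, hpos, fun i j hij => ?_⟩
  · have h0 : ∀ k, D.R.eps q.1 k ≠ 0 := fun k =>
      Finset.prod_ne_zero_iff.2 fun g _ => hg (.inl ⟨k, g⟩)
    exact a1.simple h0 hx
  · rcases hj : D.R.pl j with k | s
    · have h1 : H375.gfX D.R j q.1 ≠ 0 := hg (.inr (.inr (.inl j)))
      rw [H375.gfX, hj] at h1
      rw [UD.sg_neck q hj]
      exact div_ne_zero (mul_ne_zero (a6 j k hj).1 h1) two_ne_zero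
    · exact a5 j s hj
  · have h1 : gU2 D.R D.S i j q ≠ 0 := hg (.inr (.inr (.inr (i, j))))
    rw [gU2, if_neg hij] at h1
    exact xx_ne (hpos i) (hpos j) h1

end Vale.Agent.P273SW

end
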