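import Vale.Agent.P273SW.UAn

/-!
# P273S, block W, row UREAL: the stable family near the base point of a chart
-/

noncomputable section

namespace Vale.Agent.P273SW

open Set Filter Topology Vale.Agent.P273 H95
open Vale.Agent.P273.H888 (Real Dist Far ept posP posP_eq_iff smooth_posP)
open Vale.Agent.P273.H948 (Surf PFam IsModel IsSec State)
open Vale.Agent.P273.H768 (Lab Good Sm Nd)
open Vale.Agent.P273.H183 (Fam tot startS startP secA)

namespace UD

variable {D : UD}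

/-- A mark at the same point as a mark at a node is at this node. -/
theorem OK.same_at (h : D.OK) {i j : L} {k : Fin 3} (hj : D.At j k)
    (e : Same (D.S i) (posU D.R D.c i) (D.sg D.c i) (D.S j) (posU D.R D.c j) (D.sg D.c j)) :
    D.At i k := by
  obtain ⟨hk, hX, hY⟩ := hj
  have h0 : D.sg D.c j = 0 := by
    rw [h.sg_c_neck hk, hX, hY]
    ring
  have h1 := H724.same_zero e h0
  rcases hi : D.R.pl i with l | s
  · rw [H724.neck_S h.far hi, H724.neck_S h.far hk, Same, if_pos rfl] at e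
    rw [h.sg_c_neck hi] at h1
    have h2 : D.g i * (D.X D.c l i - D.Y D.c l i) = 0 := by linear_combination 2 * h1
    have h3 : D.X D.c l i = D.Y D.c l i :=
      sub_eq_zero.1 ((mul_eq_zero.1 h2).resolve_left (h.g0 i))
    have h4 := e.1
    rw [posU_XY D.c hi, posU_XY D.c hk, hX, hY] at h4
    have hlk : l = k := by
      by_contra hlk
      refine h.cop l k hlk (D.c.2 k) ⟨?_, ?_⟩
      · change (D.c.2 k - D.c.2 l) ^ 2 = D.R.eps D.c.1 l
        rw [← X_mul_Y D.c l i, ← h3]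
        have h5 : D.c.2 k - D.c.2 l = D.X D.c l i := by linear_combination -h4 - h3 / 2
        rw [h5]
        ring
      · change (D.c.2 k - D.c.2 k) ^ 2 = D.R.eps D.c.1 k
        rw [← X_mul_Y D.c k j, hX]
        ring
    subst hlk
    refine ⟨hi, ?_, ?_⟩
    · linear_combination h4 + h3 / 2
    · linear_combination h4 - h3 / 2
  · rw [h.sg_c_core hi] at h1
    exact absurd h1 (h.g0 i)

theorem At.pos {j : L} {k : Fin 3} (hj : D.At j k) : posU D.R D.c j = D.c.2 k := by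
  rw [posU_XY D.c hj.1, hj.2.1, hj.2.2]
  ring

theorem G_congr {i j : L} (k : Fin 3) (h1 : D.g i = D.g j)
    (h2 : posU D.R D.c i = posU D.R D.c j) : D.G i k = D.G j k := by
  funext p x
  rw [G, G, h1, h2]

section Family

variable {n : ℕ} (κ : (Fin n → ℂ) ≃L[ℂ] MU D.R)

/-- Coefficients. -/
def coU (b : Fin n → ℂ) : Fin 6 → ℂ := (psiU D.R (κ b)).1
/-- Coordinates of the marks. -/
def zU (j : L) (b : Fin n → ℂ) : ℂ := (psiU D.R (κ b)).2 j
/-- Sheets. -/
def vU (j : L) (b : Fin n → ℂ) : ℂ := D.sg (κ b) j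
/-- Types, ranks and transition factors. -/
def labU : Lab L n where
  typ j := j.2
  rk := D.R.rk
  μ i j b := H724.mu D.R (κ b).1 i j

variable {κ}

theorem an_kU (b : Fin n → ℂ) : AnalyticAt ℂ (κ : (Fin n → ℂ) → MU D.R) b :=
  (κ : (Fin n → ℂ) →L[ℂ] MU D.R).analyticAt b

theorem an_cmp {f : MU D.R → ℂ} {b : Fin n → ℂ} (hf : AnalyticAt ℂ f (κ b)) :
    AnalyticAt ℂ (fun q => f (κ q)) b :=
  AnalyticAt.comp (g := f) hf (an_kU b)

theorem coU_an (b : Fin n → ℂ) : AnalyticAt ℂ (coU κ) b :=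
  AnalyticAt.comp (g := aU D.R) (an_aU _) (an_kU b)

theorem zU_an (j : L) (b : Fin n → ℂ) : AnalyticAt ℂ (zU κ j) b :=
  an_cmp (f := fun q => posU D.R q j) (an_posU j _)

theorem OK.sqU (h : D.OK) (j : L) (b : Fin n → ℂ) :
    vU κ j b ^ 2 = pol (D.S j) (coU κ b) (zU κ j b) := h.sg_sq (κ b) j

variable {W : Set (Fin n → ℂ)} (hW : IsOpen W) (hK : ∀ b ∈ W, coU κ b ∈ H183.K6)

/-- The start family. -/
abbrev stU : Surf n := startS W (coU κ) hW (fun b _ => coU_an b) hK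

variable [Nonempty (tot W (coU κ))]

/-- The positions. -/
def PU (j : L) : (Fin n → ℂ) → (stU hW hK).X := posP (D.S j) (zU κ j) (vU κ j)

theorem OK.PU_eq_iff (h : D.OK) (i j : L) {c : Fin n → ℂ} (hc : c ∈ W) (hk : κ c = D.c) :
    PU hW hK i c = PU hW hK j c ↔ Same (D.S i) (posU D.R D.c i) (D.sg D.c i) (D.S j)
      (posU D.R D.c j) (D.sg D.c j) := by
  rw [← hk]
  exact posP_eq_iff hc (h.sqU i c) (h.sqU j c)

theorem OK.PU_neck (h : D.OK) {j : L} {k : Fin 3} (hj : D.R.pl j = Sum.inl k) :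
    PU hW hK j = secA (zU κ j) (vU κ j) := by
  funext b
  simp only [PU, posP, H724.neck_S h.far hj, Bool.false_eq_true, if_false]
  rfl

/-- The neck model at the position of a neck mark with `y = 0`. -/
theorem OK.modelU (h : D.OK) {c : Fin n → ℂ} (hc : c ∈ W) (hk : κ c = D.c) {j : L} {k : Fin 3}
    (hj : D.R.pl j = Sum.inl k) (hv : D.sg D.c j = 0) :
    ∃ (U : Set (stU hW hK).X) (u v : (stU hW hK).X → ℂ) (t : (Fin n → ℂ) → ℂ),
      PU hW hK j c ∈ U ∧ IsModel (stU hW hK).π (stU hW hK).hol U u v t ∧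
      ∀ i, D.R.pl i = Sum.inl k → posU D.R D.c i = posU D.R D.c j → D.g i = D.g j →
        ∀ᶠ b in 𝓝 c, u (PU hW hK i b) = D.X (κ b) k i ∧ v (PU hW hK i b) = D.Y (κ b) k i := by
  have hz : zU κ j c = posU D.R D.c j := by
    rw [← hk]
    rfl
  have h1 : AnalyticAt ℂ (fun w : (Fin n → ℂ) × ℂ => D.G j k (κ w.1) w.2) (c, zU κ j c) := by
    have h2 : AnalyticAt ℂ (fun w : (Fin n → ℂ) × ℂ => ((κ w.1, w.2) : MU D.R × ℂ))
        (c, zU κ j c) :=
      (AnalyticAt.comp (g := κ) (f := fun w : (Fin n → ℂ) × ℂ => w.1) (an_kU _)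
        analyticAt_fst).prod analyticAt_snd
    refine AnalyticAt.comp (g := fun q : MU D.R × ℂ => D.G j k q.1 q.2)
      (f := fun w : (Fin n → ℂ) × ℂ => ((κ w.1, w.2) : MU D.R × ℂ)) ?_ h2
    change AnalyticAt ℂ _ ((κ c, zU κ j c) : MU D.R × ℂ)
    rw [hk, hz]
    exact h.an_G hj
  have h0 : D.G j k (κ c) (zU κ j c) ≠ 0 := by
    rw [hk, hz, h.G_c hj]
    exact h.g0 j
  have h3 : ∀ᶠ w in 𝓝 ((c, zU κ j c) : (Fin n → ℂ) × ℂ),
      H183.sx (coU κ w.1) w.2 = ((w.2 - (κ w.1).2 k) ^ 2 - D.R.eps (κ w.1).1 k) *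
        D.G j k (κ w.1) w.2 ^ 2 := by
    refine Eventually.of_forall fun w => ?_
    rw [h.G_sq hj, ← H724.sx_eq]
    exact sx_aU (κ w.1) k w.2
  have hv' : vU κ j c = 0 := by
    rw [← hv, ← hk]
    rfl
  obtain ⟨U, u, v, g1, g2, g3⟩ := H724.neck_model (B := W) (a := coU κ) hW
    (fun b _ => coU_an b) hK (e := fun b => (κ b).2 k) (ε := fun b => D.R.eps (κ b).1 k)
    (z := zU κ j) (v := vU κ j) (c := c)
    (G := fun w : (Fin n → ℂ) × ℂ => D.G j k (κ w.1) w.2) hc hv'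
    (by have := h.sqU (κ := κ) j c; rwa [H724.neck_S h.far hj, H724.pol_false] at this)
    (an_cmp (f := fun q => q.2 k) (an_c k _))
    (an_cmp (f := fun q => D.R.eps q.1 k) (an_epsU k _)) h1 h0 h3
  refine ⟨U, u, v, _, by rw [h.PU_neck hW hK hj]; exact g1, g2, fun i hi hij hg => ?_⟩
  rw [h.PU_neck hW hK hi]
  refine g3 (zU κ i) (vU κ i) (fun b => D.X (κ b) k i) (fun b => D.Y (κ b) k i)
    (zU_an i c).continuousAt ?_ ?_ ?_ ?_
  · rw [hz, ← hij, ← hk]
    rfl
  · refine Eventually.of_forall fun b => ?_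
    have := h.sqU (κ := κ) i b
    rwa [H724.neck_S h.far hi, H724.pol_false] at this
  · exact Eventually.of_forall fun b => posU_XY (κ b) hi
  · refine Eventually.of_forall fun b => ?_
    rw [← G_congr k hg hij]
    exact sg_neck (κ b) hi

/-- The position of a mark is a smooth point of the curve unless the mark is at a node. -/
theorem OK.smoothU (h : D.OK) {c : Fin n → ℂ} (hc : c ∈ W) (hk : κ c = D.c) {j : L}
    (hj : ∀ k, ¬ D.At j k) : (stU hW hK).SmoothAt (PU hW hK j c) := by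
  by_cases hv : D.sg D.c j = 0
  · rcases hl : D.R.pl j with k | s
    · obtain ⟨U, u, v, t, h1, h2, h3⟩ := h.modelU hW hK hc hk hl hv
      obtain ⟨h4, h5⟩ := (h3 j hl rfl rfl).self_of_nhds
      refine ⟨U, u, v, t, h1, h2, ?_⟩
      rw [h4, h5, hk]
      by_contra hcon
      push Not at hcon
      exact hj k ⟨hl, hcon.1, hcon.2⟩
    · rw [h.sg_c_core hl] at hv
      exact absurd hv (h.g0 j)
  · refine smooth_posP _ _ _ hc (h.sqU j c) ?_
    change D.sg (κ c) j ≠ 0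
    rw [hk]
    exact hv

/-- **The positions are good** at the base point. -/
theorem OK.goodU (h : D.OK) {c : Fin n → ℂ} (hc : c ∈ W) (hk : κ c = D.c) :
    Good (labU κ) (stU hW hK) id (PU hW hK) c := by
  intro j
  by_cases hj : ∃ k, D.At j k
  · right
    obtain ⟨k, hj⟩ := hj
    have hv : D.sg D.c j = 0 := by
      rw [h.sg_c_neck hj.1, hj.2.1, hj.2.2]
      ring
    have key : ∀ i, PU hW hK i c = PU hW hK j c → D.At i k := fun i hi =>
      h.same_at hj ((h.PU_eq_iff hW hK i j hc hk).1 hi)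
    obtain ⟨U, u, v, t, h1, h2, h3⟩ := h.modelU hW hK hc hk hj.1 hv
    have h3' : ∀ i, PU hW hK i c = PU hW hK j c →
        ∀ᶠ b in 𝓝 c, u (PU hW hK i b) = D.X (κ b) k i ∧ v (PU hW hK i b) = D.Y (κ b) k i :=
      fun i hi => h3 i (key i hi).1 ((key i hi).pos.trans hj.pos.symm) (h.gs i j k (key i hi) hj)
    have hcoord := (h3' j rfl).self_of_nhds
    refine ⟨⟨?_, ?_, ?_, ?_⟩, U, u, v, t, h1, h2, ?_, ?_, ?_, ?_⟩
    · intro i hi l hl e
      exact D.R.rk_inj i l k (key i hi).1 (key l hl).1 e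
    · intro i _ l _ _
      exact an_cmp (f := fun q => H724.mu D.R q.1 i l)
        (an_fst (f := fun q => H724.mu D.R q i l) (H724.an_mu i l))
    · intro i hi l hl o _ hil hlo
      exact Eventually.of_forall fun b =>
        H724.mu_mul (κ b).1 (key i hi).1 (key l hl).1 (le_of_lt hil) (le_of_lt hlo)
    · intro i hi l hl hil he ht
      refine h.mu1 i l k (key i hi) (key l hl) ht hil ?_
      rw [← hk]
      exact he
    · rw [hcoord.1, hk, hj.2.1]
    · rw [hcoord.2, hk, hj.2.2]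
    · intro y hy hu hv' hs
      rcases hs.all hy h2 with h | h
      · exact h hu
      · exact h hv'
    · intro i l hi hl hil
      filter_upwards [h3' i hi, h3' l hl] with b k1 k2
      rw [k1.2, k2.1, k1.1, k2.2]
      exact ⟨H724.XX_mu (κ b).1 (key i hi).1 (le_of_lt hil),
        H724.YY_mu (κ b).1 (key i hi).1 (le_of_lt hil)⟩
  · left
    refine ⟨h.smoothU hW hK hc hk fun k hk' => hj ⟨k, hk'⟩, fun i hi e ht => ?_⟩
    obtain ⟨k, -, hk'⟩ := h.sep i j hi ht ((h.PU_eq_iff hW hK i j hc hk).1 e)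
    exact hj ⟨k, hk'⟩

end Family

end UD

/-- The family over a given neighbourhood of the base point, in any coordinates. -/
theorem ureal' {D : UD} (h : D.OK) {n : ℕ} (κ : (Fin n → ℂ) ≃L[ℂ] MU D.R) {O : Set (MU D.R)}
    (hO : O ∈ 𝓝 D.c) : ∃ C : Fam L n, Real κ (psiU D.R) D.S D.sg C ∧ κ.symm D.c ∈ C.B ∧
      ∀ b ∈ C.B, κ b ∈ O := by
  obtain ⟨V, hV1, hV, hcV⟩ := eventually_nhds_iff.1 ((uan D h).and hO)
  have hk : κ (κ.symm D.c) = D.c := κ.apply_symm_apply _
  have hW : IsOpen (κ ⁻¹' V) := hV.preimage κ.continuous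
  have hc : κ.symm D.c ∈ κ ⁻¹' V := by
    rw [mem_preimage, hk]
    exact hcV
  have hK : ∀ b ∈ κ ⁻¹' V, UD.coU κ b ∈ H183.K6 := fun b hb => by
    rw [← H724.K6_eq]
    exact (hV1 _ hb).1.1
  have hv : ∀ j, ∀ b ∈ κ ⁻¹' V, AnalyticAt ℂ (UD.vU κ j) b := fun j b hb =>
    UD.an_cmp (f := fun q => D.sg q j) ((hV1 _ hb).1.2.2.2.1 j)
  have hne : Nonempty (tot (κ ⁻¹' V) (UD.coU κ)) := H948.nonempty_tot hc
  obtain ⟨C, h1, h2, h3, r, h4⟩ := H948.real_data (W := κ ⁻¹' V) (a := UD.coU κ) (S := D.S)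
    (z := UD.zU κ) (v := UD.vU κ) (Λ := UD.labU κ) hW (fun b _ => UD.coU_an b) hK
    (fun j b _ => UD.zU_an j b) hv (fun j b _ => h.sqU j b) hc (h.goodU hW hK hc hk)
  exact ⟨C, ⟨h3, ⟨κ ⁻¹' V, hW, fun b _ => UD.coU_an b, hK, hne, r, h2, h4⟩,
    fun j b _ => UD.zU_an j b, fun j b hb => hv j b (h2 hb), fun j b _ => h.sqU j b⟩, h1,
    fun b hb => (hV1 _ (h2 hb)).2⟩

/-- **UREAL.** -/
theorem ureal : UREAL := by
  intro D h k
  obtain ⟨C, h1, h2, -⟩ := ureal' h k univ_mem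
  exact ⟨C, h1, h2⟩

end Vale.Agent.P273SW

end
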