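import Vale.Agent.P273SW.EG

/-!
# P273S, block W: the extension of the embedding to the charts with three necks
-/

noncomputable section

namespace Vale.Agent.P273SW

open Set Filter Topology Vale.Agent.P273 H95
open Vale.Agent.P273.H681 (C6)
open Vale.Agent.P273.H888 (Dist Far)
open scoped ContDiff ComplexConjugate

/-! ### The sextic of a chart -/

theorem sx_Psi' (q : (Fin 3 → ℂ) × (Fin 3 → ℂ)) (x : ℂ) :
    sx (Psi q) x = ∏ k, ((x - q.1 k) ^ 2 - q.2 k) := by
  have hm : ∀ k, ((Polynomial.X - Polynomial.C (q.1 k)) ^ 2 - Polynomial.C (q.2 k)).Monic := by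
    intro k
    refine Polynomial.Monic.sub_of_left ((Polynomial.monic_X_sub_C _).pow 2) ?_
    rw [Polynomial.degree_pow, Polynomial.degree_X_sub_C]
    exact lt_of_le_of_lt Polynomial.degree_C_le (by norm_num)
  have hd : (∏ k, ((Polynomial.X - Polynomial.C (q.1 k)) ^ 2 - Polynomial.C (q.2 k))).natDegree
      = 6 := by
    rw [Polynomial.natDegree_prod_of_monic _ _ fun k _ => hm k]
    simp only [H724.quad_natDegree]
    simp
  have h := H724.sx_monic (Polynomial.monic_prod_of_monic _ _ fun k _ => hm k) hd x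
  rw [Polynomial.eval_prod] at h
  refine h.trans (Finset.prod_congr rfl fun k _ => ?_)
  simp

theorem sx_aU' (R : Region) (p : MU R) (k : Fin 3) (x : ℂ) :
    sx (aU R p) x = ((x - p.2 k) ^ 2 - R.eps p.1 k) * QU R p k x := by
  rw [aU, sx_Psi', Fin.prod_univ_three, QU]
  fin_cases k
  · simp only [Fin.zero_eta, zero_add]
    ring
  · have h1 : (1 + 1 : Fin 3) = 2 := rfl
    have h2 : (1 + 2 : Fin 3) = 0 := rfl
    simp only [Fin.mk_one, h1, h2]
    ring
  · have h1 : (2 + 1 : Fin 3) = 0 := rfl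
    have h2 : (2 + 2 : Fin 3) = 1 := rfl
    simp only [Fin.reduceFinMk, h1, h2]
    ring

theorem ddQ_mul' (R : Region) (p : MU R) (k : Fin 3) (x y : ℂ) :
    (x - y) * ddQ R p k x y = QU R p k x - QU R p k y := by
  unfold ddQ QU
  ring

theorem dd_aU (R : Region) (p : MU R) (k : Fin 3) (x y : ℂ) :
    dd (aU R p) x y = (x + y - 2 * p.2 k) * QU R p k x +
      ((y - p.2 k) ^ 2 - R.eps p.1 k) * ddQ R p k x y := by
  have h1 : Continuous fun y => dd (aU R p) x y := by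
    unfold dd
    fun_prop
  have h2 : Continuous fun y => (x + y - 2 * p.2 k) * QU R p k x +
      ((y - p.2 k) ^ 2 - R.eps p.1 k) * ddQ R p k x y := by
    unfold ddQ
    fun_prop
  refine congrFun (Continuous.ext_on (dense_compl_singleton x) h1 h2 fun y hy => ?_) y
  have h3 : x - y ≠ 0 := sub_ne_zero.2 (Ne.symm hy)
  refine mul_left_cancel₀ h3 ?_
  have h4 := ddQ_mul' R p k x y
  rw [dd_mul, sx_aU' R p k x, sx_aU' R p k y]
  linear_combination (-((y - p.2 k) ^ 2 - R.eps p.1 k)) * h4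

theorem posU_neck' {R : Region} (p : MU R) {j : L} {k : Fin 3} (hj : R.pl j = Sum.inl k) :
    posU R p j = p.2 k + (R.XX p.1 k (R.rk j) + R.YY p.1 k (R.rk j)) / 2 := by
  rw [posU, H724.pos_neck p.1 hj, hj, Sum.elim_inl]
  ring

theorem sg_neck' (D : UD) (p : MU D.R) {j : L} {k : Fin 3} (hj : D.R.pl j = Sum.inl k) :
    D.sg p j = D.G j k p (posU D.R p j) * (D.X p k j - D.Y p k j) / 2 := by
  rw [UD.sg, hj, Sum.elim_inl]

/-! ### Projectors -/

theorem n2_smul (s : ℂ) (w : ℂ × ℂ) : n2 (s • w) = s * conj s * n2 w := by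
  simp only [n2, Prod.smul_fst, Prod.smul_snd, smul_eq_mul, map_mul]
  ring

theorem q2_smul (s : ℂ) (w : ℂ × ℂ) : q2 (s • w) = (s * conj s) • q2 w := by
  simp only [q2, Prod.smul_fst, Prod.smul_snd, smul_eq_mul, map_mul, Prod.smul_mk]
  refine Prod.ext ?_ (Prod.ext ?_ ?_) <;> simp only <;> ring

theorem pr2_par {s t : ℂ} {w : ℂ × ℂ} (h : n2 (s • w) + n2 (t • w) ≠ 0) :
    pr2 (s • w) (t • w) = pr1 w := by
  rw [n2_smul, n2_smul, ← add_mul] at h
  rw [pr2, pr1, n2_smul, n2_smul, q2_smul, q2_smul, ← add_mul, ← add_smul, smul_smul]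
  congr 1
  have h1 := left_ne_zero_of_mul h
  have h2 := right_ne_zero_of_mul h
  field_simp

/-- The two vectors of a pair of marks of one neck are multiples of `uw`. -/
theorem par_uw (D : UD) (p : MU D.R) {i j : L} {k : Fin 3} (hS : Far D.R D.S)
    (hi : D.R.pl i = Sum.inl k) (hj : D.R.pl j = Sum.inl k) (hij : D.R.rk i < D.R.rk j)
    (gi : D.G i k p (posU D.R p i) ^ 2 = QU D.R p k (posU D.R p i))
    (gj : D.G j k p (posU D.R p j) ^ 2 = QU D.R p k (posU D.R p j))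
    (g0 : D.G i k p (posU D.R p i) + D.G j k p (posU D.R p j) ≠ 0) :
    ∃ s t : ℂ, uu D.S (psiU D.R p) (D.sg p) i j = s • D.uw p k i j ∧
      uv D.S (psiU D.R p) (D.sg p) i j = t • D.uw p k i j := by
  have hX : D.X p k j = H724.mu D.R p.1 i j * D.X p k i := H724.XX_mu p.1 hi hij.le
  have hY : D.Y p k i = H724.mu D.R p.1 i j * D.Y p k j := H724.YY_mu p.1 hi hij.le
  have xi : posU D.R p i = p.2 k + (D.X p k i + D.Y p k i) / 2 := posU_neck' p hi
  have xj : posU D.R p j = p.2 k + (D.X p k j + D.Y p k j) / 2 := posU_neck' p hj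
  have he : D.X p k j * D.Y p k j = D.R.eps p.1 k := H724.XX_mul_YY p.1 k _
  have hq : ddQ D.R p k (posU D.R p i) (posU D.R p j) =
      D.gd p k i j * (D.G i k p (posU D.R p i) + D.G j k p (posU D.R p j)) := by
    rw [UD.gd, div_mul_cancel₀ _ g0]
  have hG : D.G j k p (posU D.R p j) = D.G i k p (posU D.R p i) -
      (posU D.R p i - posU D.R p j) * D.gd p k i j := by
    refine mul_right_cancel₀ g0 ?_
    have h1 := ddQ_mul' D.R p k (posU D.R p i) (posU D.R p j)
    rw [hq] at h1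
    linear_combination gj - gi + h1
  have hd := dd_aU D.R p k (posU D.R p i) (posU D.R p j)
  rw [hq, ← gi, ← he] at hd
  have si := sg_neck' D p hi
  have sj := sg_neck' D p hj
  refine ⟨(D.X p k i - D.Y p k j) / 2, D.G i k p (posU D.R p i) * (D.X p k i + D.Y p k j) / 2 +
    (D.X p k i - D.Y p k j) * D.gd p k i j * (D.X p k j - D.Y p k j) / 4, ?_, ?_⟩
  · simp only [uu, UD.uw, H724.neck_S hS hi, H724.neck_S hS hj, xx, yy, Bool.false_eq_true,
      if_false, psiU, Prod.smul_mk, smul_eq_mul, si, sj]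
    generalize D.G i k p (posU D.R p i) = Gi at *
    generalize D.G j k p (posU D.R p j) = Gj at *
    rw [hG, xi, xj, hX, hY]
    refine Prod.ext ?_ ?_ <;> simp only <;> ring
  · simp only [uv, UD.uw, H724.neck_S hS hi, H724.neck_S hS hj, xx, yy, Bool.false_eq_true,
      if_false, psiU, Prod.smul_mk, smul_eq_mul, si, sj, hd]
    generalize D.G i k p (posU D.R p i) = Gi at *
    generalize D.G j k p (posU D.R p j) = Gj at *
    rw [hG, xi, xj, hX, hY]
    refine Prod.ext ?_ ?_ <;> simp only <;> ring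

theorem uu_swap (S : L → Bool) (e : E) (v : L → ℂ) (i j : L) :
    uu S e v i j = ((uu S e v j i).1, -(uu S e v j i).2) := by
  simp only [uu]
  refine Prod.ext ?_ ?_ <;> simp only <;> ring

theorem uv_swap (S : L → Bool) (e : E) (v : L → ℂ) (i j : L) :
    uv S e v i j = ((uv S e v j i).1, -(uv S e v j i).2) := by
  simp only [uv]
  refine Prod.ext (dd_symm _ _ _) ?_
  simp only
  ring

/-- The direction of the slope, in any order of the two marks. -/
def uw' (D : UD) (p : MU D.R) (k : Fin 3) (i j : L) : ℂ × ℂ :=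
  if D.R.rk i < D.R.rk j then D.uw p k i j else ((D.uw p k j i).1, -(D.uw p k j i).2)

theorem par_uw' (D : UD) (p : MU D.R) {i j : L} {k : Fin 3} (hS : Far D.R D.S) (hne : i ≠ j)
    (hi : D.R.pl i = Sum.inl k) (hj : D.R.pl j = Sum.inl k)
    (gi : D.G i k p (posU D.R p i) ^ 2 = QU D.R p k (posU D.R p i))
    (gj : D.G j k p (posU D.R p j) ^ 2 = QU D.R p k (posU D.R p j))
    (g0 : D.G i k p (posU D.R p i) + D.G j k p (posU D.R p j) ≠ 0) :
    ∃ s t : ℂ, uu D.S (psiU D.R p) (D.sg p) i j = s • uw' D p k i j ∧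
      uv D.S (psiU D.R p) (D.sg p) i j = t • uw' D p k i j := by
  unfold uw'
  by_cases h : D.R.rk i < D.R.rk j
  · rw [if_pos h]
    exact par_uw D p hS hi hj h gi gj g0
  · rw [if_neg h]
    have h1 : D.R.rk j < D.R.rk i :=
      lt_of_le_of_ne (not_lt.1 h) fun e => hne (D.R.rk_inj i j k hi hj e.symm)
    obtain ⟨s, t, h2, h3⟩ := par_uw D p hS hj hi h1 gj gi (by rwa [add_comm])
    refine ⟨s, t, ?_, ?_⟩
    · rw [uu_swap, h2]
      simp
    · rw [uv_swap, h3]
      simp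

/-! ### Smoothness -/

/-- What `UAN` gives at a point. -/
def Nice (D : UD) (p : MU D.R) : Prop :=
  aU D.R p ∈ K6 ∧ Cop (p.2, D.R.eps p.1) ∧
  AnalyticAt ℂ (psiU D.R) p ∧ (∀ j, AnalyticAt ℂ (fun q => D.sg q j) p) ∧
  (∀ j, D.sg p j ^ 2 = pol (D.S j) (aU D.R p) (posU D.R p j)) ∧
  (∀ j s, D.R.pl j = Sum.inr s → D.sg p j ≠ 0) ∧
  ∀ j k, D.R.pl j = Sum.inl k → D.G j k p (posU D.R p j) ≠ 0 ∧
    D.G j k p (posU D.R p j) ^ 2 = QU D.R p k (posU D.R p j) ∧
    AnalyticAt ℂ (fun q : MU D.R × ℂ => D.G j k q.1 q.2) (p, posU D.R p j)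

section

variable {D : UD} {p : MU D.R}

theorem Nice.an_pos (h : Nice D p) (j : L) : AnalyticAt ℂ (fun q => posU D.R q j) p :=
  analyticAt_pi_iff.1 (analyticAt_snd.comp h.2.2.1) j

theorem Nice.an_G (h : Nice D p) {j : L} {k : Fin 3} (hj : D.R.pl j = Sum.inl k) :
    AnalyticAt ℂ (fun q => D.G j k q (posU D.R q j)) p :=
  AnalyticAt.comp (g := fun q : MU D.R × ℂ => D.G j k q.1 q.2)
    (f := fun q => (q, posU D.R q j)) (h.2.2.2.2.2.2 j k hj).2.2
    (analyticAt_id.prod (h.an_pos j))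

theorem an_eps' (k : Fin 3) : AnalyticAt ℂ (fun q : MU D.R => D.R.eps q.1 k) p :=
  AnalyticAt.comp (g := fun q : D.R.Sp => D.R.eps q k) (H724.an_eps k) analyticAt_fst

theorem an_ctr' (k : Fin 3) : AnalyticAt ℂ (fun q : MU D.R => q.2 k) p :=
  analyticAt_pi_iff.1 analyticAt_snd k

theorem an_X' (k : Fin 3) (j : L) : AnalyticAt ℂ (fun q : MU D.R => D.X q k j) p :=
  AnalyticAt.comp (g := fun q : D.R.Sp => D.R.XX q k (D.R.rk j)) (H724.an_XX k _) analyticAt_fst

theorem an_Y' (k : Fin 3) (j : L) : AnalyticAt ℂ (fun q : MU D.R => D.Y q k j) p :=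
  AnalyticAt.comp (g := fun q : D.R.Sp => D.R.YY q k (D.R.rk j)) (H724.an_YY k _) analyticAt_fst

theorem an_mu' (i j : L) : AnalyticAt ℂ (fun q : MU D.R => H724.mu D.R q.1 i j) p :=
  AnalyticAt.comp (g := fun q : D.R.Sp => H724.mu D.R q i j) (H724.an_mu i j) analyticAt_fst

theorem Nice.an_uw (h : Nice D p) {i j : L} {k : Fin 3} (hi : D.R.pl i = Sum.inl k)
    (hj : D.R.pl j = Sum.inl k)
    (g0 : D.G i k p (posU D.R p i) + D.G j k p (posU D.R p j) ≠ 0) :
    AnalyticAt ℂ (fun q => D.uw q k i j) p := by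
  have xi := h.an_pos i
  have xj := h.an_pos j
  have two : AnalyticAt ℂ (fun _ : MU D.R => (2 : ℂ)) p := analyticAt_const
  have one : AnalyticAt ℂ (fun _ : MU D.R => (1 : ℂ)) p := analyticAt_const
  have hq : AnalyticAt ℂ (fun q => ddQ D.R q k (posU D.R q i) (posU D.R q j)) p :=
    ((((xi.add xj).sub (two.mul (an_ctr' _))).mul
      (((xi.sub (an_ctr' _)).pow 2).sub (an_eps' _))).add
      ((((xj.sub (an_ctr' _)).pow 2).sub (an_eps' _)).mul
        ((xi.add xj).sub (two.mul (an_ctr' _)))))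
  have hg : AnalyticAt ℂ (fun q => D.gd q k i j) p :=
    hq.div ((h.an_G hi).add (h.an_G hj)) g0
  exact (((h.an_G hi).mul (one.add (an_mu' i j))).sub
    (((((one.sub (an_mu' i j)).mul hg).mul ((an_X' k j).sub (an_Y' k j)))).div two
      two_ne_zero)).prod (one.sub (an_mu' i j))

theorem Nice.an_uw' (h : Nice D p) {i j : L} {k : Fin 3} (hi : D.R.pl i = Sum.inl k)
    (hj : D.R.pl j = Sum.inl k)
    (g0 : D.G i k p (posU D.R p i) + D.G j k p (posU D.R p j) ≠ 0) :
    AnalyticAt ℂ (fun q => uw' D q k i j) p := by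
  unfold uw'
  by_cases hr : D.R.rk i < D.R.rk j
  · simp only [hr, if_true]
    exact h.an_uw hi hj g0
  · simp only [hr, if_false]
    have h1 := h.an_uw hj hi (by rwa [add_comm])
    exact (analyticAt_fst.comp h1).prod (analyticAt_snd.comp h1).neg

theorem sm_of_an {F : Type} [NormedAddCommGroup F] [NormedSpace ℂ F] [NormedSpace ℝ F]
    [IsScalarTower ℝ ℂ F] [CompleteSpace F] {f : MU D.R → F} (h : AnalyticAt ℂ f p) : ContDiffAt ℝ ∞ f p :=
  (h.contDiffAt (n := ∞)).restrict_scalars ℝ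

end

/-! ### The base point -/

theorem csq_one' : csq 1 = 1 := by simp [csq]

theorem G_base {D : UD} (hD : D.OK) {j : L} {k : Fin 3} (hj : D.R.pl j = Sum.inl k) :
    D.G j k D.c (posU D.R D.c j) = D.g j := by
  have h : QU D.R D.c k (posU D.R D.c j) ≠ 0 := by
    rw [← hD.gn j k hj]
    exact pow_ne_zero 2 (hD.g0 j)
  rw [UD.G, div_self h, csq_one', mul_one]

theorem uw_base {D : UD} (hD : D.OK) {i j : L} {k : Fin 3} (hi : D.At i k) (hj : D.At j k) :
    D.uw D.c k i j ≠ 0 := by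
  intro e
  have h1 := congrArg Prod.fst e
  have h2 := congrArg Prod.snd e
  simp only [UD.uw, G_base hD hi.1, hj.2.1, hj.2.2, Prod.fst_zero, Prod.snd_zero] at h1 h2
  refine hD.g0 i ?_
  linear_combination (h1 + D.g i * h2) / 2

theorem uw'_base {D : UD} (hD : D.OK) {i j : L} {k : Fin 3} (hi : D.At i k) (hj : D.At j k) :
    uw' D D.c k i j ≠ 0 := by
  unfold uw'
  split_ifs
  · exact uw_base hD hi hj
  · intro e
    have e1 : (D.uw D.c k j i).1 = 0 := congrArg Prod.fst e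
    have e2 : -(D.uw D.c k j i).2 = 0 := congrArg Prod.snd e
    exact uw_base hD hj hi (Prod.ext e1 (neg_eq_zero.1 e2))

/-- The condition of `EGD`. -/
def Off (D : UD) (p : MU D.R) (i j : L) : Prop :=
  D.sg p i ≠ 0 ∨ D.sg p j ≠ 0 ∨ (D.S i = false ∧ D.S j = false ∧
    ((psiU D.R p).2 i ≠ (psiU D.R p).2 j ∨ sx1 (psiU D.R p).1 ((psiU D.R p).2 i) ≠ 0))

theorem off_base {D : UD} (hD : D.OK) (h : Nice D D.c) {i j : L}
    (hn : ¬ ∃ k, D.At i k ∧ D.At j k) : Off D D.c i j := by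
  by_contra hc
  simp only [Off, not_or, not_not, not_and] at hc
  obtain ⟨h1, h2, h3⟩ := hc
  have nk : ∀ l, D.sg D.c l = 0 → ∃ k, D.R.pl l = Sum.inl k ∧ D.X D.c k l = D.Y D.c k l := by
    intro l hl
    rcases hp : D.R.pl l with k | s
    · refine ⟨k, rfl, ?_⟩
      rw [sg_neck' D D.c hp, G_base hD hp] at hl
      have h4 : D.g l * (D.X D.c k l - D.Y D.c k l) = 0 := by linear_combination 2 * hl
      exact sub_eq_zero.1 ((mul_eq_zero.1 h4).resolve_left (hD.g0 l))
    · exact absurd hl (h.2.2.2.2.2.1 l s hp)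
  obtain ⟨k, hi, ei⟩ := nk i h1
  obtain ⟨l, hj, ej⟩ := nk j h2
  obtain ⟨h4, h5⟩ := h3 (H724.neck_S hD.far hi) (H724.neck_S hD.far hj)
  have h4' : posU D.R D.c i = posU D.R D.c j := h4
  have xi : posU D.R D.c i = D.c.2 k + (D.X D.c k i + D.Y D.c k i) / 2 := posU_neck' _ hi
  have xj : posU D.R D.c j = D.c.2 l + (D.X D.c l j + D.Y D.c l j) / 2 := posU_neck' _ hj
  have mi : D.X D.c k i * D.Y D.c k i = D.R.eps D.c.1 k := H724.XX_mul_YY _ k _
  have mj : D.X D.c l j * D.Y D.c l j = D.R.eps D.c.1 l := H724.XX_mul_YY _ l _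
  rw [← ei] at xi mi
  rw [← ej] at xj mj
  have qi : (posU D.R D.c i - D.c.2 k) ^ 2 = D.R.eps D.c.1 k := by
    rw [xi, ← mi]; ring
  have qj : (posU D.R D.c i - D.c.2 l) ^ 2 = D.R.eps D.c.1 l := by
    rw [h4', xj, ← mj]; ring
  have hkl : k = l := by
    by_contra hkl
    exact hD.cop k l hkl _ ⟨qi, qj⟩
  subst hkl
  have h6 : sx1 (aU D.R D.c) (posU D.R D.c i) = 0 := h5
  rw [← dd_self, dd_aU D.R D.c k, qi, sub_self, zero_mul, add_zero, ← hD.gn i k hi] at h6
  have h7 := (mul_eq_zero.1 h6).resolve_right (pow_ne_zero 2 (hD.g0 i))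
  have h8 : D.X D.c k i = 0 := by
    rw [xi] at h7
    linear_combination h7 / 2
  have h9 : D.X D.c k j = 0 := by
    rw [xi, xj] at h4'
    linear_combination h8 - h4'
  exact hn ⟨k, ⟨hi, h8, ei ▸ h8⟩, ⟨hj, h9, ej ▸ h9⟩⟩

theorem off_near {D : UD} (h : Nice D D.c) {i j : L} (ho : Off D D.c i j) :
    ∀ᶠ p in 𝓝 D.c, Off D p i j := by
  have hs : ∀ l, ContinuousAt (fun q => D.sg q l) D.c := fun l => (h.2.2.2.1 l).continuousAt
  have hz : ∀ l, ContinuousAt (fun q => (psiU D.R q).2 l) D.c :=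
    fun l => (h.an_pos l).continuousAt
  rcases ho with ho | ho | ⟨h1, h2, ho | ho⟩
  · filter_upwards [(hs i).eventually_ne ho] with p hp using Or.inl hp
  · filter_upwards [(hs j).eventually_ne ho] with p hp using Or.inr (Or.inl hp)
  · filter_upwards [((hz i).sub (hz j)).eventually_ne (sub_ne_zero.2 ho)] with p hp
    exact Or.inr (Or.inr ⟨h1, h2, Or.inl (sub_ne_zero.1 hp)⟩)
  · have h3 : ContinuousAt (fun q => sx1 (psiU D.R q).1 ((psiU D.R q).2 i)) D.c := by
      simp only [← dd_self]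
      exact (sm_dd (sm_of_an h.2.2.1).fst (sm_of_an (h.an_pos i))
        (sm_of_an (h.an_pos i))).continuousAt
    filter_upwards [h3.eventually_ne ho] with p hp
    exact Or.inr (Or.inr ⟨h1, h2, Or.inr hp⟩)

open Classical in
theorem eU_pair (D : UD) (p : MU D.R) (i j : L) : (D.eU p).2.2 i j =
    if h : i ≠ j ∧ ∃ k, D.At i k ∧ D.At j k then
      cc D.S (psiU D.R p) (D.sg p) i j • pr1 (uw' D p h.2.choose i j)
    else pair D.S (psiU D.R p) (D.sg p) i j := rfl

/-- **UEXT.** -/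
theorem uext (hA : UAN) (hN : UDEN) : UEXT := by
  intro D hD
  have h0 : ∀ᶠ p in 𝓝 D.c, Nice D p := hA D hD
  have hc : Nice D D.c := h0.self_of_nhds
  have h1 : ∀ᶠ p in 𝓝 D.c, ∀ i j k, D.At i k → D.At j k →
      D.G i k p (posU D.R p i) + D.G j k p (posU D.R p j) ≠ 0 ∧ uw' D p k i j ≠ 0 := by
    simp only [eventually_all]
    intro i j k hi hj
    have g0 : D.G i k D.c (posU D.R D.c i) + D.G j k D.c (posU D.R D.c j) ≠ 0 := by
      rw [G_base hD hi.1, G_base hD hj.1, ← hD.gs i j k hi hj, ← two_mul]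
      exact mul_ne_zero two_ne_zero (hD.g0 i)
    exact (((hc.an_G hi.1).add (hc.an_G hj.1)).continuousAt.eventually_ne g0).and
      ((hc.an_uw' hi.1 hj.1 g0).continuousAt.eventually_ne (uw'_base hD hi hj))
  have h2 : ∀ᶠ p in 𝓝 D.c, ∀ i j, (¬ ∃ k, D.At i k ∧ D.At j k) → Off D p i j := by
    simp only [eventually_all]
    intro i j hn
    exact off_near hc (off_base hD hc hn)
  obtain ⟨O, hO, hOo, hcO⟩ := eventually_nhds_iff.1 (h0.and (h1.and (h2.and (hN D hD))))
  refine ⟨O, hcO, hOo, fun p hp => ?_, fun _ _ => rfl, fun _ _ _ => rfl, fun p hp hd => ?_,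
    fun p hp => (hO p hp).2.2.2⟩
  · obtain ⟨k0, k1, k2, -⟩ := hO p hp
    have hψ : ContDiffAt ℝ ∞ (psiU D.R) p := sm_of_an k0.2.2.1
    have hσ : ContDiffAt ℝ ∞ D.sg p := contDiffAt_pi.2 fun j => sm_of_an (k0.2.2.2.1 j)
    obtain ⟨e1, e2, e3⟩ := egd (MU D.R) D.S (psiU D.R) D.sg p hψ hσ
    refine ContDiffAt.contDiffWithinAt ?_
    have e4 : ContDiffAt ℝ ∞ (fun q => (D.eU q).2.2) p := by
      refine contDiffAt_pi.2 fun i => contDiffAt_pi.2 fun j => ?_
      simp only [eU_pair]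
      by_cases h : i ≠ j ∧ ∃ k, D.At i k ∧ D.At j k
      · simp only [dif_pos h]
        obtain ⟨a1, a2⟩ := h.2.choose_spec
        obtain ⟨a3, a4⟩ := k1 i j _ a1 a2
        exact (e2 i j).smul (sm_pr1 (sm_of_an (k0.an_uw' a1.1 a2.1 a3)) a4)
      · simp only [dif_neg h]
        by_cases hij : i = j
        · simp only [pair, hij, if_true]
          exact contDiffAt_const
        · exact e3 i j (k2 i j fun a => h ⟨hij, a⟩)
    exact hψ.fst.prodMk ((contDiffAt_pi.2 e1).prodMk e4)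
  · obtain ⟨k0, k1, -, -⟩ := hO p hp
    refine Prod.ext rfl (Prod.ext rfl ?_)
    funext i j
    rw [eU_pair]
    by_cases h : i ≠ j ∧ ∃ k, D.At i k ∧ D.At j k
    · rw [dif_pos h]
      obtain ⟨a1, a2⟩ := h.2.choose_spec
      obtain ⟨a3, -⟩ := k1 i j _ a1 a2
      obtain ⟨s, t, b1, b2⟩ := par_uw' D p hD.far h.1 a1.1 a2.1
        (k0.2.2.2.2.2.2 i _ a1.1).2.1 (k0.2.2.2.2.2.2 j _ a2.1).2.1 a3
      have b3 : n2 (uu D.S (psiU D.R p) (D.sg p) i j) + n2 (uv D.S (psiU D.R p) (D.sg p) i j)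
          ≠ 0 :=
        n2_pair_ne (by simp [H724.neck_S hD.far a1.1]) (by simp [H724.neck_S hD.far a2.1])
          (Or.inl (hd.1 i).2)
      change _ = pair D.S (psiU D.R p) (D.sg p) i j
      rw [pair, if_neg h.1, b1, b2, pr2_par (by rwa [b1, b2] at b3)]
    · rw [dif_neg h]
      rfl

end Vale.Agent.P273SW

end
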