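import Vale.Agent.P273SW.Defs
import Vale.Agent.P273.H887.WfSm

/-!
# P273S, block W, row WEXT

A closed form near `WW` gives a wall: pull it back by the embedding and by its extensions.
-/

noncomputable section

namespace Vale.Agent.P273SW

open Set Filter Topology Vale.Agent.P273 H95
open Vale.Agent.P273.H888 (Dist Far)
open scoped ContDiff

section Br

variable {S : L → Bool} {e : E} {v : L → ℂ}

theorem wx_br_self (h : OnC S e.1 e.2 v) : br S e v e = v := by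
  funext j
  unfold br
  rw [← (h j).1, div_self (pow_ne_zero 2 (h j).2), H883.csq_one, mul_one]

theorem wx_br_sq (h : OnC S e.1 e.2 v) (p : E) (j : L) :
    br S e v p j ^ 2 = pol (S j) p.1 (p.2 j) := by
  unfold br
  have h0 : pol (S j) e.1 (e.2 j) ≠ 0 := (h j).1 ▸ pow_ne_zero 2 (h j).2
  rw [mul_pow, H883.csq_sq, (h j).1]
  field_simp

theorem wx_br_cont (h : OnC S e.1 e.2 v) :
    ∀ᶠ p in 𝓝 e, ∀ j, ContinuousAt (fun q => br S e v q j) p := by
  rw [eventually_all]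
  intro j
  have h0 : pol (S j) e.1 (e.2 j) ≠ 0 := (h j).1 ▸ pow_ne_zero 2 (h j).2
  have h1 : Continuous fun p : E => pol (S j) p.1 (p.2 j) / pol (S j) e.1 (e.2 j) :=
    ((H894.continuous_pol (S j)).comp
      (continuous_fst.prodMk ((continuous_apply j).comp continuous_snd))).div_const _
  have h2 : ∀ᶠ p : E in 𝓝 e,
      pol (S j) p.1 (p.2 j) / pol (S j) e.1 (e.2 j) ∈ Complex.slitPlane := by
    refine h1.continuousAt.eventually (Complex.isOpen_slitPlane.mem_nhds ?_)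
    beta_reduce
    rw [div_self h0]
    exact Complex.one_mem_slitPlane
  filter_upwards [h2] with p hp
  exact continuousAt_const.mul (ContinuousAt.comp (g := csq)
    (f := fun p : E => pol (S j) p.1 (p.2 j) / pol (S j) e.1 (e.2 j))
    (H883.analyticAt_csq hp).continuousAt h1.continuousAt)

/-- A continuous family of sheets is the branch. -/
theorem wx_br_ev {M : Type*} [TopologicalSpace M] {ψ : M → E} {σ : M → L → ℂ} {p : M}
    (hψ : ContinuousAt ψ p) (hσ : ∀ j, ContinuousAt (fun q => σ q j) p)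
    (hsq : ∀ᶠ q in 𝓝 p, ∀ j, σ q j ^ 2 = pol (S j) (ψ q).1 ((ψ q).2 j))
    (h : OnC S (ψ p).1 (ψ p).2 (σ p)) : ∀ᶠ q in 𝓝 p, σ q = br S (ψ p) (σ p) (ψ q) := by
  have key : ∀ᶠ q in 𝓝 p, ∀ j, σ q j = br S (ψ p) (σ p) (ψ q) j := by
    rw [eventually_all]
    intro j
    refine H888.eq_of_sq (hσ j) (ContinuousAt.comp (g := fun x => br S (ψ p) (σ p) x j)
      ((wx_br_cont h).self_of_nhds j) hψ) ?_ (h j).2 ?_
    · rw [wx_br_self h]
    · filter_upwards [hsq] with q hq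
      rw [hq j, wx_br_sq h]
  filter_upwards [key] with q hq
  exact funext hq

theorem wx_gn_dist (h : Gn S e v) : Dist S e v := by
  refine ⟨h.2.1, fun i j hij hs => h.2.2.2 i j hij ?_⟩
  unfold Same at hs
  unfold xx
  by_cases hS : S i = S j
  · rw [if_pos hS] at hs
    rw [hS, hs.1]
  · rw [if_neg hS] at hs
    cases hi : S i <;> cases hj : S j
    · exact absurd (hi.trans hj.symm) hS
    · simp only [Bool.false_eq_true, if_false, if_true]
      exact eq_inv_of_mul_eq_one_left hs.1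
    · simp only [Bool.false_eq_true, if_false, if_true]
      exact (eq_inv_of_mul_eq_one_right hs.1).symm
    · exact absurd (hi.trans hj.symm) hS

end Br

/-- The embedding along the branch. -/
def FB (S : L → Bool) (e : E) (v : L → ℂ) (p : E) : Amb := eG S p (br S e v p)

/-- The pull-back of a form. -/
def pbk {M : Type} [NormedAddCommGroup M] [NormedSpace ℝ M] (η : Amb → Alt 16 Amb)
    (f : M → Amb) (p : M) : Alt 16 M := (η (f p)).compContinuousLinearMap (fderiv ℝ f p)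

/-- The interior form. -/
def FSw (η : Amb → Alt 16 Amb) (S : L → Bool) (e : E) (v : L → ℂ) : Alt 16 E :=
  pbk η (FB S e v) e

section Gen

variable {M : Type} [NormedAddCommGroup M] [NormedSpace ℝ M] {S : L → Bool} {ψ : M → E}
  {σ : M → L → ℂ} {O : Set M} {f : M → Amb} {p : M} {η : Amb → Alt 16 Amb} {U : Set Amb}

theorem pbk_congr {g : M → Amb} (h : f =ᶠ[𝓝 p] g) : pbk η f p = pbk η g p := by
  unfold pbk
  rw [h.fderiv_eq, h.self_of_nhds]

theorem pbk_comp {F : E → Amb} (h : f =ᶠ[𝓝 p] fun q => F (ψ q))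
    (hF : DifferentiableAt ℝ F (ψ p)) (hψ : DifferentiableAt ℝ ψ p) :
    pbk η f p = (pbk η F (ψ p)).compContinuousLinearMap (fderiv ℝ ψ p) := by
  rw [pbk_congr h]
  unfold pbk
  rw [fderiv_fun_comp p hF hψ]
  rfl

theorem pbk_reg [FiniteDimensional ℝ M] (hU : IsOpen U) (hW : WW ⊆ U) (hη : ContDiffOn ℝ ∞ η U)
    (hc : ∀ u ∈ U, extDeriv η u = 0) (hf : IsExt S ψ σ O f) (hm : MapsTo f O WW) :
    ContDiffOn ℝ ∞ (pbk η f) O ∧ ∀ q ∈ O, extDeriv (pbk η f) q = 0 := by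
  have key : ∀ q ∈ O, ContDiffAt ℝ ∞ (pbk η f) q ∧ extDeriv (pbk η f) q = 0 := fun q hq =>
    Vale.P273.H887.pullback_smooth_closed (g := η) (φ := f)
      (hη.contDiffAt (hU.mem_nhds (hW (hm hq)))) (hf.sm.contDiffAt (hf.opn.mem_nhds hq))
      (hc _ (hW (hm hq)))
  exact ⟨fun q hq => (key q hq).1.contDiffWithinAt, fun q hq => (key q hq).2⟩

/-- Near a point with marks off the roots the extension is the embedding along the branch. -/
theorem ext_ev (hPG : PG) (hf : IsExt S ψ σ O f) (hp : p ∈ O)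
    (hψ : ∀ᶠ q in 𝓝 p, ContinuousAt ψ q) (hσ : ∀ j, ContinuousAt (fun q => σ q j) p)
    (hsq : ∀ᶠ q in 𝓝 p, ∀ j, σ q j ^ 2 = pol (S j) (ψ q).1 ((ψ q).2 j))
    (hK : (ψ p).1 ∈ K6) (h : OnC S (ψ p).1 (ψ p).2 (σ p)) (hs : Sep S (ψ p).2 (σ p)) :
    f =ᶠ[𝓝 p] fun q => FB S (ψ p) (σ p) (ψ q) := by
  obtain ⟨O', hO', hF, -⟩ := hPG S (ψ p) (σ p) hK h hs
  have e1 := wx_br_ev hψ.self_of_nhds hσ hsq h
  have e2 : ∀ᶠ q in 𝓝 p, ψ q ∈ O' := hψ.self_of_nhds.eventually (hF.opn.mem_nhds hO')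
  have e3 : ∀ᶠ q in 𝓝 p, q ∈ O := hf.opn.mem_nhds hp
  filter_upwards [hψ, e2, e3, (e1.and e3).eventually_nhds] with q k1 k2 k3 k4
  have c1 : ContinuousAt f q := hf.sm.continuousOn.continuousAt (hf.opn.mem_nhds k3)
  have c2 : ContinuousAt (fun q => FB S (ψ p) (σ p) (ψ q)) q :=
    ContinuousAt.comp (g := FB S (ψ p) (σ p)) (f := ψ)
      (hF.sm.continuousOn.continuousAt (hF.opn.mem_nhds k2)) k1
  refine tendsto_nhds_unique_of_frequently_eq c1 c2 ?_
  refine ((mem_closure_iff_frequently.1 (hf.dense k3)).and_eventually k4).mono fun x hx => ?_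
  rw [hf.eq x hx.2.2 (wx_gn_dist hx.1), FB, ← hx.2.1]

theorem pbk_ext (hPG : PG) (hf : IsExt S ψ σ O f) (hp : p ∈ O)
    (hψ : ContDiffAt ℝ 1 ψ p) (hσ : ∀ j, ContinuousAt (fun q => σ q j) p)
    (hsq : ∀ᶠ q in 𝓝 p, ∀ j, σ q j ^ 2 = pol (S j) (ψ q).1 ((ψ q).2 j))
    (hK : (ψ p).1 ∈ K6) (h : OnC S (ψ p).1 (ψ p).2 (σ p)) (hs : Sep S (ψ p).2 (σ p)) :
    pbk η f p = (FSw η S (ψ p) (σ p)).compContinuousLinearMap (fderiv ℝ ψ p) := by
  have h1 : ∀ᶠ q in 𝓝 p, ContinuousAt ψ q :=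
    (hψ.eventually (by simp)).mono fun q hq => hq.continuousAt
  obtain ⟨O', hO', hF, -⟩ := hPG S (ψ p) (σ p) hK h hs
  exact pbk_comp (ext_ev hPG hf hp h1 hσ hsq hK h hs)
    ((hF.sm.contDiffAt (hF.opn.mem_nhds hO')).differentiableAt (by simp))
    (hψ.differentiableAt (by simp))

end Gen

section Main

variable {η : Amb → Alt 16 Amb} {U : Set Amb}

theorem wx_reg (hPG : PG) (hU : IsOpen U) (hW : WW ⊆ U) (hη : ContDiffOn ℝ ∞ η U)
    (hc : ∀ u ∈ U, extDeriv η u = 0) (S : L → Bool) (e : E) (v : L → ℂ) (hK : e.1 ∈ K6)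
    (h : OnC S e.1 e.2 v) (hs : Sep S e.2 v) :
    Near id S (FSw η S) (fun g p => extDeriv g p = 0) e v := by
  obtain ⟨O, hO, hF, hm⟩ := hPG S e v hK h hs
  obtain ⟨h1, h2⟩ := pbk_reg hU hW hη hc hF hm
  obtain ⟨W, r, hWo, heW, hWO, hr, h4⟩ := H888.exists_near (S := S) (σ := br S e v)
    (O := O ∩ {p | ∀ j, ContinuousAt (fun q => br S e v q j) p})
    (fun j => (h j).2) (wx_br_cont h).self_of_nhds (wx_br_self h)
    (inter_mem (hF.opn.mem_nhds hO) (wx_br_cont h)) (fun p _ j => wx_br_sq h p j)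
  refine ⟨W, pbk η (FB S e v), r, hWo, heW, hr, h1.mono fun p hp => (hWO hp).1,
    fun p hp => h2 p (hWO hp).1, fun p hp v' k1 k2 => ?_⟩
  obtain ⟨h5, h6⟩ := h4 p hp v' k1 k2
  subst h5
  refine pbk_congr ?_
  filter_upwards [wx_br_ev (S := S) (ψ := id) (σ := br S e v) (p := p) continuousAt_id (hWO hp).2
    (Eventually.of_forall fun q j => wx_br_sq h q j) (fun j => ⟨k1 j, h6 j⟩)] with q hq
  exact congrArg (eG S q) hq.symm

theorem wx_chg (hE : EGS) (hPG : PG) (S S' : L → Bool) (e : E) (v : L → ℂ) (hK : e.1 ∈ K6)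
    (h : OnC S e.1 e.2 v) (hs : Sep S e.2 v) (h0 : ∀ j, S j ≠ S' j → e.2 j ≠ 0) :
    FSw η S e v = (FSw η S' (H95.flip S S' e) (flipv S S' e.2 v)).compContinuousLinearMap
      (fderiv ℝ (H95.flip S S') e) := by
  have hC := H894.onC_flip h0 h
  obtain ⟨O, hO, hF, -⟩ := hPG S' (H95.flip S S' e) (flipv S S' e.2 v) hK hC
    ((H894.sep_flip h0).2 hs)
  have ha := H888.analyticAt_flip h0
  have hz : ∀ j, ContinuousAt (fun q : E => q.2 j) e := fun j =>
    ((continuous_apply j).comp continuous_snd).continuousAt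
  have e0 : ∀ᶠ q : E in 𝓝 e, ∀ j, S j ≠ S' j → q.2 j ≠ 0 := by
    rw [eventually_all]
    intro j
    by_cases hj : S j = S' j
    · exact Eventually.of_forall fun q hq => absurd hj hq
    · exact ((hz j).eventually_ne (h0 j hj)).mono fun q hq _ => hq
  have e1 := wx_br_ev (S := S') (ψ := H95.flip S S')
    (σ := fun q => flipv S S' q.2 (br S e v q)) (p := e) ha.continuousAt (fun j => by
      unfold flipv
      by_cases hj : S j = S' j
      · simp only [hj, if_true]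
        exact (wx_br_cont h).self_of_nhds j
      · simp only [hj, if_false]
        exact ((wx_br_cont h).self_of_nhds j).mul (((hz j).inv₀ (h0 j hj)).pow 3))
    (e0.mono fun q hq j => H894.sq_flip hq (wx_br_sq h q) j) (by rw [wx_br_self h]; exact hC)
  rw [wx_br_self h] at e1
  refine pbk_comp ?_ ((hF.sm.contDiffAt (hF.opn.mem_nhds hO)).differentiableAt (by simp))
    ((ha.differentiableAt).restrictScalars ℝ)
  filter_upwards [e0, e1] with q k0 k1
  unfold FB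
  rw [← k1]
  exact hE S S' q _ _ _ rfl fun j => H888.flip_same (k0 j)

theorem wx_loc1 (hPG : PG) (hP1 : P1) (hU : IsOpen U) (hW : WW ⊆ U) (hη : ContDiffOn ℝ ∞ η U)
    (hc : ∀ u ∈ U, extDeriv η u = 0) : RegLoc1 (FSw η) := by
  intro R S hS p₀ g₀ v₀ ho
  obtain ⟨O, f, hO, hf, hm⟩ := hP1 R S hS p₀ g₀ v₀ ho
  obtain ⟨h1, h2⟩ := pbk_reg hU hW hη hc hf hm
  obtain ⟨r, hr, h3⟩ := H883.sheet_unique (H883.ok_sheet ho) (H883.ok_ctr ho)
    fun j hj => (H883.ok_core ho hj).1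
  have h4 : ∀ᶠ p in 𝓝 p₀, ∀ j, ContinuousAt (fun q => H883.sg1 R S p₀ g₀ v₀ q j) p := by
    rw [eventually_all]
    intro j
    exact (H883.an_sht ho j).eventually_analyticAt.mono fun p hp => hp.continuousAt
  obtain ⟨W, k1, k2, k3⟩ := eventually_nhds_iff.1 ((h3.and h4).and
    ((H883.ok_branch ho).eventually_nhds.and (hf.opn.mem_nhds hO)))
  refine ⟨W, pbk η f, r, k2, k3, hr, h1.mono fun p hp => (k1 p hp).2.2,
    fun p hp => h2 p (k1 p hp).2.2, fun p hp g v hop hg hv hst _ => ?_⟩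
  obtain ⟨⟨l1, l2⟩, l3, l4⟩ := k1 p hp
  obtain ⟨l5, l6⟩ := l1 g v (H883.ok_sheet hop) hg hv
  have l7 : R.sht p g v = H883.sg1 R S p₀ g₀ v₀ p := by
    rw [R.sht_congr l6 p g, l5]
    rfl
  have l8 := H883.ok_onC hS hop hst
  have l9 := H883.ok_sep hS hop hst.1
  rw [l7] at l8 l9 ⊢
  exact pbk_ext hPG hf l4 ((R.contDiffAt_psi p).of_le (by simp)) l2
    (l3.mono fun q hq j => H883.ok_sht_sq hS hq j) (H883.ok_K6' hop) l8 l9

end Main

/-- **WEXT.** -/
theorem wext (hE : EGS) (hPG : PG) (hPR : PR) (hP1 : P1) : WEXT := by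
  intro U η hU hW hη hc
  obtain ⟨H1, h1, h2⟩ := H95.extH1 (FSw η) (FSw η) (wx_reg hPG hU hW hη hc)
    (fun _ _ _ _ _ => rfl) (wx_loc1 hPG hP1 hU hW hη hc) H450.pos1
  refine ⟨⟨FSw η, wx_reg hPG hU hW hη hc, wx_chg hE hPG, fun R S => pbk η (eR R S),
    fun R S hS => pbk_reg hU hW hη hc (hPR R S hS).1 (hPR R S hS).2, fun R S hS p hp hst => ?_,
    H1, h1, h2⟩, fun R S _ p _ => rfl⟩
  have hP := H375.posOK hS
  have hd : R.dom S ∈ 𝓝 p := hP.isOpen.mem_nhds hp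
  exact pbk_ext hPG (hPR R S hS).1 hp ((hP.psi.contDiffAt hd).of_le (by simp))
    (fun j => (hP.sht j).continuousAt hd) (Eventually.mono hd fun q hq j => hP.sq q hq j)
    (hP.K p hp) (H888.onC_of_isStd hP hp hst) (hP.sep p hp hst)

end Vale.Agent.P273SW

end
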