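import Vale.Agent.P273.H888.Inst
import Vale.Agent.P273.H450.CloseExt1

/-!
# P273S, block W: the space of the wall

`eG` embeds the standard data (sextic, marks) into the real vector space `Amb`; it extends smoothly
to all regions. `WW` is the part of the closure of its image which has charts with stable families.
Definitions and statements of the rows.
-/

noncomputable section

namespace Vale.Agent.P273SW

open Set Filter Topology Vale.Agent.P273 H95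
open Vale.Agent.P273.H681 (C6)
open Vale.Agent.P273.H183 (Fam IsMor)
open Vale.Agent.P273.H888 (Real Dist Far ept)
open scoped ContDiff ComplexConjugate

universe u

abbrev C3 : Type := ℂ × ℂ × ℂ
abbrev C4 : Type := ℂ × ℂ × ℂ × ℂ
/-- The ambient space: coefficients, positions of the marks, slopes of pairs of marks. -/
abbrev Amb : Type := C6 × (L → C4) × (L → L → C3)

/-- The position of a point of the curve. -/
def pt4 (s : Bool) (z v : ℂ) : C4 := (ept (m := 0) s 0 z v).2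
/-- The affine coordinate `x`. -/
def xx (s : Bool) (z : ℂ) : ℂ := if s then z⁻¹ else z
/-- The affine coordinate `y`. -/
def yy (s : Bool) (z v : ℂ) : ℂ := if s then v / z ^ 3 else v
/-- Zero near infinity, positive at the roots. -/
def cut (a : C6) (P : C4) : ℝ :=
  expNegInvGlue (P.1.re * (3 + 2 * ∑ i, Complex.normSq (a i)) - 1 / 2)
/-- The divided difference of the sextic. -/
def dd (a : C6) (x y : ℂ) : ℂ :=
  ∑ k ∈ Finset.range 6, x ^ k * y ^ (6 - 1 - k) +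
    ∑ i : Fin 6, a i * ∑ k ∈ Finset.range i, x ^ k * y ^ ((i : ℕ) - 1 - k)
def q2 (u : ℂ × ℂ) : C3 := (u.1 * conj u.1, u.1 * conj u.2, u.2 * conj u.2)
def n2 (u : ℂ × ℂ) : ℂ := u.1 * conj u.1 + u.2 * conj u.2
/-- The projector on the line of `u`. -/
def pr1 (u : ℂ × ℂ) : C3 := (n2 u)⁻¹ • q2 u
/-- The projector on the line of two parallel vectors. -/
def pr2 (u u' : ℂ × ℂ) : C3 := (n2 u + n2 u')⁻¹ • (q2 u + q2 u')
def uu (S : L → Bool) (e : E) (v : L → ℂ) (i j : L) : ℂ × ℂ :=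
  (yy (S i) (e.2 i) (v i) + yy (S j) (e.2 j) (v j), xx (S i) (e.2 i) - xx (S j) (e.2 j))
def uv (S : L → Bool) (e : E) (v : L → ℂ) (i j : L) : ℂ × ℂ :=
  (dd e.1 (xx (S i) (e.2 i)) (xx (S j) (e.2 j)), yy (S i) (e.2 i) (v i) - yy (S j) (e.2 j) (v j))
/-- The product of the two cut-offs. -/
def cc (S : L → Bool) (e : E) (v : L → ℂ) (i j : L) : ℝ :=
  cut e.1 (pt4 (S i) (e.2 i) (v i)) * cut e.1 (pt4 (S j) (e.2 j) (v j))
def pair (S : L → Bool) (e : E) (v : L → ℂ) (i j : L) : C3 :=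
  if i = j then 0 else cc S e v i j • pr2 (uu S e v i j) (uv S e v i j)
/-- The embedding. -/
def eG (S : L → Bool) (e : E) (v : L → ℂ) : Amb :=
  (e.1, fun j => pt4 (S j) (e.2 j) (v j), pair S e v)

/-- Generic data: simple roots, marks finite, off the roots, with distinct `x`. -/
def Gn (S : L → Bool) (e : E) (v : L → ℂ) : Prop :=
  (∀ x, sx e.1 x = 0 → sx1 e.1 x ≠ 0) ∧ OnC S e.1 e.2 v ∧ (∀ j, e.2 j ≠ 0) ∧
    ∀ i j, i ≠ j → xx (S i) (e.2 i) ≠ xx (S j) (e.2 j)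

/-- The generic points of the ambient space. -/
def StdW : Set Amb := {w | ∃ S e v, Gn S e v ∧ w = eG S e v}

/-- `f` is the smooth extension to `O` of the embedding along `(ψ, σ)`. -/
structure IsExt {M : Type} [NormedAddCommGroup M] [NormedSpace ℝ M] (S : L → Bool) (ψ : M → E)
    (σ : M → L → ℂ) (O : Set M) (f : M → Amb) : Prop where
  opn : IsOpen O
  sm : ContDiffOn ℝ ∞ f O
  fst : ∀ p ∈ O, (f p).1 = (ψ p).1
  pos : ∀ p ∈ O, ∀ j, (f p).2.1 j = pt4 (S j) ((ψ p).2 j) (σ p j)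
  eq : ∀ p ∈ O, Dist S (ψ p) (σ p) → f p = eG S (ψ p) (σ p)
  dense : O ⊆ closure {p | Gn S (ψ p) (σ p)}

/-- A chart with a stable family near `w`. -/
def HasChart (w : Amb) : Prop :=
  ∃ (S : L → Bool) (ψ : (Fin 20 → ℂ) → E) (σ : (Fin 20 → ℂ) → L → ℂ) (C : Fam L 20)
    (O : Set (Fin 20 → ℂ)) (f : (Fin 20 → ℂ) → Amb) (N : Set Amb) (lam : Amb → Fin 20 → ℂ),
    Real (ContinuousLinearEquiv.refl ℂ (Fin 20 → ℂ)) ψ S σ C ∧ O ⊆ C.B ∧ IsExt S ψ σ O f ∧
    IsOpen N ∧ w ∈ N ∧ ContinuousOn lam N ∧ MapsTo lam N O ∧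
    (∀ b ∈ O, f b ∈ N → lam (f b) = b) ∧ ∀ u ∈ N ∩ StdW, f (lam u) = u

/-- The space of the wall. -/
def WW : Set Amb := closure StdW ∩ {w | HasChart w}

/-- Natural continuous maps from the bases of the stable families to `Z`, with unique limits. -/
structure NatMap {Z : Type*} [TopologicalSpace Z] (cls : ∀ m, Fam L m → (Fin m → ℂ) → Z) :
    Prop where
  cont : ∀ m (C : Fam L m), C.IsStable → ContinuousOn (cls m C) C.B
  mor : ∀ m m' (C : Fam L m) (C' : Fam L m') φ Φ, C.IsStable → C'.IsStable → IsMor C' C φ Φ →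
    ∀ b ∈ C'.B, cls m' C' b = cls m C (φ b)
  seq : ∀ m m' (C : Fam L m) (C' : Fam L m') (x : ℕ → Fin m → ℂ) (x' : ℕ → Fin m' → ℂ) b b',
    C.IsStable → C'.IsStable → b ∈ C.B → b' ∈ C'.B → (∀ n, x n ∈ C.B) → (∀ n, x' n ∈ C'.B) →
    Tendsto x atTop (𝓝 b) → Tendsto x' atTop (𝓝 b') → (∀ n, cls m C (x n) = cls m' C' (x' n)) →
    cls m C b = cls m' C' b'

/-! ### The charts with three necks and free centres -/

/-- Coefficients of the product of the three quadratic factors. -/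
def Psi (q : (Fin 3 → ℂ) × (Fin 3 → ℂ)) : C6 := fun i =>
  (∏ k, ((Polynomial.X - Polynomial.C (q.1 k)) ^ 2 - Polynomial.C (q.2 k))).coeff i
/-- The factors are coprime. -/
def Cop (q : (Fin 3 → ℂ) × (Fin 3 → ℂ)) : Prop :=
  ∀ k l, k ≠ l → ∀ x : ℂ, ¬ ((x - q.1 k) ^ 2 = q.2 k ∧ (x - q.1 l) ^ 2 = q.2 l)

/-- Gaps, core marks and centres. -/
abbrev MU (R : Region) : Type := R.Sp × (Fin 3 → ℂ)

def aU (R : Region) (p : MU R) : C6 := Psi (p.2, R.eps p.1)
def posU (R : Region) (p : MU R) (j : L) : ℂ :=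
  R.pos p.1 j + (R.pl j).elim (fun k => p.2 k - ctr k) fun _ => 0
def psiU (R : Region) (p : MU R) : E := (aU R p, posU R p)
/-- The other two factors. -/
def QU (R : Region) (p : MU R) (k : Fin 3) (x : ℂ) : ℂ :=
  ((x - p.2 (k + 1)) ^ 2 - R.eps p.1 (k + 1)) * ((x - p.2 (k + 2)) ^ 2 - R.eps p.1 (k + 2))
/-- The divided difference: `(x - y) * ddQ = QU x - QU y`. -/
def ddQ (R : Region) (p : MU R) (k : Fin 3) (x y : ℂ) : ℂ :=
  (x + y - 2 * p.2 (k + 1)) * ((x - p.2 (k + 2)) ^ 2 - R.eps p.1 (k + 2)) +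
    ((y - p.2 (k + 1)) ^ 2 - R.eps p.1 (k + 1)) * (x + y - 2 * p.2 (k + 2))

/-- The data of a chart: a region, charts of the marks, a base point and square roots. -/
structure UD where
  R : Region
  S : L → Bool
  c : MU R
  g : L → ℂ

namespace UD

variable (D : UD)

/-- The branch of the root of the other two factors for the mark `j` in the neck `k`. -/
def G (j : L) (k : Fin 3) (p : MU D.R) (x : ℂ) : ℂ :=
  D.g j * csq (QU D.R p k x / QU D.R D.c k (posU D.R D.c j))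
def X (p : MU D.R) (k : Fin 3) (j : L) : ℂ := D.R.XX p.1 k (D.R.rk j)
def Y (p : MU D.R) (k : Fin 3) (j : L) : ℂ := D.R.YY p.1 k (D.R.rk j)
/-- The sheets. -/
def sg (p : MU D.R) (j : L) : ℂ :=
  (D.R.pl j).elim (fun k => D.G j k p (posU D.R p j) * (D.X p k j - D.Y p k j) / 2) fun _ =>
    D.g j * csq (pol (D.S j) (aU D.R p) (posU D.R p j) /
      pol (D.S j) (aU D.R D.c) (posU D.R D.c j))
/-- The mark `j` is at the node of the neck `k` over the base point. -/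
def At (j : L) (k : Fin 3) : Prop := D.R.pl j = Sum.inl k ∧ D.X D.c k j = 0 ∧ D.Y D.c k j = 0

/-- The conditions at the base point. -/
structure OK : Prop where
  far : Far D.R D.S
  cop : Cop (D.c.2, D.R.eps D.c.1)
  g0 : ∀ j, D.g j ≠ 0
  gn : ∀ j k, D.R.pl j = Sum.inl k → D.g j ^ 2 = QU D.R D.c k (posU D.R D.c j)
  gc : ∀ j s, D.R.pl j = Sum.inr s → D.g j ^ 2 = pol (D.S j) (aU D.R D.c) (posU D.R D.c j)
  gs : ∀ i j k, D.At i k → D.At j k → D.g i = D.g j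
  sep : ∀ i j : L, i ≠ j → i.2 = j.2 →
    Same (D.S i) (posU D.R D.c i) (D.sg D.c i) (D.S j) (posU D.R D.c j) (D.sg D.c j) →
    ∃ k, D.At i k ∧ D.At j k
  mu1 : ∀ (i j : L) k, D.At i k → D.At j k → i.2 = j.2 → D.R.rk i < D.R.rk j →
    H724.mu D.R D.c.1 i j ≠ 1

/-- The divided difference of the branch. -/
def gd (p : MU D.R) (k : Fin 3) (i j : L) : ℂ :=
  ddQ D.R p k (posU D.R p i) (posU D.R p j) /
    (D.G i k p (posU D.R p i) + D.G j k p (posU D.R p j))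
/-- The direction of the slope of two marks at a node, `i` before `j`: `uu i j` is
`(X i - Y j) / 2` times this vector. -/
def uw (p : MU D.R) (k : Fin 3) (i j : L) : ℂ × ℂ :=
  (D.G i k p (posU D.R p i) * (1 + H724.mu D.R p.1 i j) -
    (1 - H724.mu D.R p.1 i j) * D.gd p k i j * (D.X p k j - D.Y p k j) / 2,
    1 - H724.mu D.R p.1 i j)
open Classical in
/-- The extension of the embedding. -/
def eU (p : MU D.R) : Amb :=
  (aU D.R p, fun j => pt4 (D.S j) (posU D.R p j) (D.sg p j), fun i j =>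
    if h : i ≠ j ∧ ∃ k, D.At i k ∧ D.At j k then
      cc D.S (psiU D.R p) (D.sg p) i j • pr1 (if D.R.rk i < D.R.rk j then D.uw p h.2.choose i j
        else ((D.uw p h.2.choose j i).1, -(D.uw p h.2.choose j i).2))
    else pair D.S (psiU D.R p) (D.sg p) i j)

end UD

/-- The branch of the sheets through `v` over `e`. -/
def br (S : L → Bool) (e : E) (v : L → ℂ) (p : E) (j : L) : ℂ :=
  v j * csq (pol (S j) p.1 (p.2 j) / pol (S j) e.1 (e.2 j))

/-- The extension of the embedding to a region. -/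
def eR (R : Region) (S : L → Bool) : R.Sp → Amb :=
  extendFrom {p | p ∈ R.dom S ∧ Gn S (R.psi p) (R.sht S p)} fun p => eG S (R.psi p) (R.sht S p)

/-! ### The rows -/

/-- **EGS**: the embedding does not depend on the charts. -/
def EGS : Prop := ∀ S S' (e e' : E) v v', e.1 = e'.1 →
  (∀ j, Same (S j) (e.2 j) (v j) (S' j) (e'.2 j) (v' j)) → eG S e v = eG S' e' v'

/-- **EGD**: smoothness of the coordinates; a pair unless both marks are at one node. -/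
def EGD : Prop := ∀ (M : Type) [NormedAddCommGroup M] [NormedSpace ℝ M] (S : L → Bool)
  (ψ : M → E) (σ : M → L → ℂ) (p : M), ContDiffAt ℝ ∞ ψ p → ContDiffAt ℝ ∞ σ p →
  (∀ j, ContDiffAt ℝ ∞ (fun q => pt4 (S j) ((ψ q).2 j) (σ q j)) p) ∧
  (∀ i j, ContDiffAt ℝ ∞ (fun q => cc S (ψ q) (σ q) i j) p) ∧
  ∀ i j, (σ p i ≠ 0 ∨ σ p j ≠ 0 ∨ (S i = false ∧ S j = false ∧
      ((ψ p).2 i ≠ (ψ p).2 j ∨ sx1 (ψ p).1 ((ψ p).2 i) ≠ 0))) →
    ContDiffAt ℝ ∞ (fun q => pair S (ψ q) (σ q) i j) p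

/-- **PSI**: the local inverse of the product of the factors. -/
def PSI : Prop := ∀ c, Cop c → ∃ (V : Set C6) (ι : C6 → (Fin 3 → ℂ) × (Fin 3 → ℂ)),
  IsOpen V ∧ Psi c ∈ V ∧ ContinuousOn ι V ∧ ι (Psi c) = c ∧ (∀ a ∈ V, Psi (ι a) = a) ∧
    ∀ᶠ q in 𝓝 c, ι (Psi q) = q

/-- **UAN**: analyticity and the equations near the base point. -/
def UAN : Prop := ∀ D : UD, D.OK → ∀ᶠ p in 𝓝 D.c, aU D.R p ∈ K6 ∧ Cop (p.2, D.R.eps p.1) ∧
  AnalyticAt ℂ (psiU D.R) p ∧ (∀ j, AnalyticAt ℂ (fun q => D.sg q j) p) ∧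
  (∀ j, D.sg p j ^ 2 = pol (D.S j) (aU D.R p) (posU D.R p j)) ∧
  (∀ j s, D.R.pl j = Sum.inr s → D.sg p j ≠ 0) ∧
  ∀ j k, D.R.pl j = Sum.inl k → D.G j k p (posU D.R p j) ≠ 0 ∧
    D.G j k p (posU D.R p j) ^ 2 = QU D.R p k (posU D.R p j) ∧
    AnalyticAt ℂ (fun q : MU D.R × ℂ => D.G j k q.1 q.2) (p, posU D.R p j)

/-- **UREAL**: the family. -/
def UREAL : Prop := ∀ D : UD, D.OK → ∀ k : (Fin 20 → ℂ) ≃L[ℂ] MU D.R,
  ∃ C : Fam L 20, Real k (psiU D.R) D.S D.sg C ∧ k.symm D.c ∈ C.B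

/-- **UDEN**: generic points are dense near the base point. -/
def UDEN : Prop := ∀ D : UD, D.OK →
  ∀ᶠ p in 𝓝 D.c, p ∈ closure {q | Gn D.S (psiU D.R q) (D.sg q)}

/-- **UEXT**: the extension. -/
def UEXT : Prop := ∀ D : UD, D.OK → ∃ O, D.c ∈ O ∧ IsExt D.S (psiU D.R) D.sg O D.eU

/-- **UINV**: the left inverse. -/
def UINV : Prop := ∀ D : UD, D.OK → ∀ O ∈ 𝓝 D.c, ∃ (O' : Set (MU D.R)) (N : Set Amb)
  (lam : Amb → MU D.R), IsOpen O' ∧ D.c ∈ O' ∧ O' ⊆ O ∧ IsOpen N ∧ D.eU D.c ∈ N ∧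
  ContinuousOn lam N ∧ MapsTo lam N O' ∧ (∀ p ∈ O', D.eU p ∈ N → lam (D.eU p) = p) ∧
  ∀ S e v, Gn S e v → eG S e v ∈ N → aU D.R (lam (eG S e v)) = e.1 ∧
    ∀ j, Same (D.S j) (posU D.R (lam (eG S e v)) j) (D.sg (lam (eG S e v)) j) (S j) (e.2 j) (v j)

/-- **UCH**: the values of the extension near the base point are in `WW`. -/
def UCH : Prop := ∀ D : UD, D.OK →
  ∃ O, D.c ∈ O ∧ IsExt D.S (psiU D.R) D.sg O D.eU ∧ MapsTo D.eU O WW

/-- **PG**: the interior. -/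
def PG : Prop := ∀ S (e : E) v, e.1 ∈ K6 → OnC S e.1 e.2 v → Sep S e.2 v →
  ∃ O, e ∈ O ∧ IsExt S id (br S e v) O (fun p => eG S p (br S e v p)) ∧
    MapsTo (fun p => eG S p (br S e v p)) O WW

/-- **PR**: the regions with three necks. -/
def PR : Prop := ∀ R S, Far R S →
  IsExt S R.psi (R.sht S) (R.dom S) (eR R S) ∧ MapsTo (eR R S) (R.dom S) WW

/-- **PV**: the values of `eR`. -/
def PV : Prop := ∀ R S, Far R S → ∀ p ∈ R.dom S, ∀ i j : L,
  ((¬ ∃ k, R.pl i = Sum.inl k ∧ R.pl j = Sum.inl k ∧ R.XX p k (R.rk i) = 0 ∧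
      R.YY p k (R.rk i) = 0 ∧ R.XX p k (R.rk j) = 0 ∧ R.YY p k (R.rk j) = 0) ∨ i = j →
    (eR R S p).2.2 i j = pair S (R.psi p) (R.sht S p) i j) ∧
  ∀ k, R.pl i = Sum.inl k → R.pl j = Sum.inl k → R.rk i < R.rk j → R.XX p k (R.rk i) = 0 →
    R.YY p k (R.rk j) = 0 →
    (eR R S p).2.2 i j = cc S (R.psi p) (R.sht S p) i j •
      pr1 (gk (R.eps p) k (ctr k) * (1 + H724.mu R p i j), 1 - H724.mu R p i j) ∧
    (eR R S p).2.2 j i = cc S (R.psi p) (R.sht S p) j i •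
      pr1 (gk (R.eps p) k (ctr k) * (1 + H724.mu R p i j), -(1 - H724.mu R p i j))

/-- **P1**: the regions with one neck. -/
def P1 : Prop := ∀ (R : Region1) (S : L → Bool), (∀ j, S j = true → R.nk j = false) →
  ∀ p g v, R.ok S p g v → ∃ O f, p ∈ O ∧ IsExt S R.psi (H883.sg1 R S p g v) O f ∧ MapsTo f O WW

/-- **CMP**: two realizing families have the same class at points with the same distinct marks. -/
def CMP : Prop := ∀ (Z : Type u) [TopologicalSpace Z] (cls : ∀ m, Fam L m → (Fin m → ℂ) → Z),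
  NatMap cls → ∀ (n n' : ℕ) (M M' : Type) [NormedAddCommGroup M] [NormedSpace ℂ M]
  [NormedAddCommGroup M'] [NormedSpace ℂ M'] (k : (Fin n → ℂ) ≃L[ℂ] M)
  (k' : (Fin n' → ℂ) ≃L[ℂ] M') ψ ψ' S S' σ σ' (C : Fam L n) (C' : Fam L n'),
  Real k ψ S σ C → Real k' ψ' S' σ' C' → ∀ b ∈ C.B, ∀ b' ∈ C'.B,
  (ψ (k b)).1 = (ψ' (k' b')).1 →
  (∀ j, Same (S j) ((ψ (k b)).2 j) (σ (k b) j) (S' j) ((ψ' (k' b')).2 j) (σ' (k' b') j)) →
  Dist S (ψ (k b)) (σ (k b)) → cls n C b = cls n' C' b'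

/-- **WLC**: `WW` is locally contractible. -/
def WLC : Prop := StronglyLocallyContractibleSpace WW

/-- **WPHI**: the map to the moduli space. -/
def WPHI : Prop := ∀ (Z : Type u) [TopologicalSpace Z] (cls : ∀ m, Fam L m → (Fin m → ℂ) → Z),
  NatMap cls → ∃ Φ : C(WW, Z), ∀ (R : Region) (S : L → Bool) (C : Fam L 17), Far R S →
    Real (H680.k17 R) R.psi S (R.sht S) C → ∀ p ∈ R.dom S, (H680.k17 R).symm p ∈ C.B →
    ∀ h : eR R S p ∈ WW, Φ ⟨eR R S p, h⟩ = cls 17 C ((H680.k17 R).symm p)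

/-- **WEXT**: a closed form near `WW` gives a wall. -/
def WEXT : Prop := ∀ (U : Set Amb) (η : Amb → Alt 16 Amb), IsOpen U → WW ⊆ U →
  ContDiffOn ℝ ∞ η U → (∀ u ∈ U, extDeriv η u = 0) → ∃ X : Ext, ∀ R S, Far R S →
    ∀ p ∈ R.dom S, X.H R S p = (η (eR R S p)).compContinuousLinearMap (fderiv ℝ (eR R S) p)

end Vale.Agent.P273SW

end
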