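import Vale.Agent.P273SW.Defs

/-!
# P273S, block W, row UAN: analyticity and the equations near the base point of a chart
-/

noncomputable section

namespace Vale.Agent.P273SW

open Set Filter Topology Vale.Agent.P273 H95
open Vale.Agent.P273.H681 (C6)
open Vale.Agent.P273.H888 (Real Dist Far ept)

section Poly

open Polynomial

/-- One quadratic factor. -/
def qf (q : (Fin 3 → ℂ) × (Fin 3 → ℂ)) (k : Fin 3) : ℂ[X] := (X - C (q.1 k)) ^ 2 - C (q.2 k)

theorem qf_monic (q : (Fin 3 → ℂ) × (Fin 3 → ℂ)) (k : Fin 3) :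
    (qf q k).Monic ∧ (qf q k).natDegree = 2 := by
  have h : qf q k = X ^ 2 + C (-2 * q.1 k) * X + C (q.1 k ^ 2 - q.2 k) := by
    simp only [qf, C_mul, C_sub, C_pow, C_neg, C_ofNat]
    ring
  rw [h]
  constructor
  · monicity!
  · compute_degree!

theorem PA_Psi (q : (Fin 3 → ℂ) × (Fin 3 → ℂ)) : H375.PA (Psi q) = ∏ k, qf q k := by
  have hm : (∏ k, qf q k).Monic := monic_prod_of_monic _ _ fun k _ => (qf_monic q k).1
  have hd : (∏ k, qf q k).natDegree = 6 := by
    rw [natDegree_prod_of_monic _ _ fun k _ => (qf_monic q k).1]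
    simp [(qf_monic q _).2]
  have h1 := (∏ k, qf q k).as_sum_range_C_mul_X_pow
  rw [hd] at h1
  have h6 : (∏ k, qf q k).coeff 6 = 1 := by
    have := hm.coeff_natDegree
    rwa [hd] at this
  rw [Finset.sum_range_succ, h6, Finset.sum_range] at h1
  rw [h1, H375.PA, add_comm]
  simp [Psi, qf]

theorem eval_qf (q : (Fin 3 → ℂ) × (Fin 3 → ℂ)) (k : Fin 3) (x : ℂ) :
    (qf q k).eval x = (x - q.1 k) ^ 2 - q.2 k := by simp [qf]

theorem eval_qf1 (q : (Fin 3 → ℂ) × (Fin 3 → ℂ)) (k : Fin 3) (x : ℂ) :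
    (derivative (qf q k)).eval x = 2 * (x - q.1 k) := by
  simp [qf, derivative_pow]

theorem eval_qf2 (q : (Fin 3 → ℂ) × (Fin 3 → ℂ)) (k : Fin 3) (x : ℂ) :
    (derivative (derivative (qf q k))).eval x = 2 := by
  simp [qf, derivative_pow]

theorem sx_Psi (q : (Fin 3 → ℂ) × (Fin 3 → ℂ)) (x : ℂ) :
    sx (Psi q) x = ∏ k, ((x - q.1 k) ^ 2 - q.2 k) := by
  rw [← H375.eval_PA, PA_Psi, eval_prod]
  simp [qf]

theorem Cop.ne {q : (Fin 3 → ℂ) × (Fin 3 → ℂ)} (h : Cop q) {k l : Fin 3} (hkl : k ≠ l) {x : ℂ}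
    (hk : (x - q.1 k) ^ 2 - q.2 k = 0) : (x - q.1 l) ^ 2 - q.2 l ≠ 0 := fun hl =>
  h k l hkl x ⟨sub_eq_zero.1 hk, sub_eq_zero.1 hl⟩

theorem Cop.rest {q : (Fin 3 → ℂ) × (Fin 3 → ℂ)} (h : Cop q) {k : Fin 3} {x : ℂ}
    (hk : (qf q k).eval x = 0) : (∏ l ∈ Finset.univ.erase k, qf q l).eval x ≠ 0 := by
  rw [eval_prod]
  refine Finset.prod_ne_zero_iff.2 fun l hl => ?_
  rw [eval_qf]
  exact h.ne (Finset.ne_of_mem_erase hl).symm (by rwa [eval_qf] at hk)

/-- No triple roots. -/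
theorem Cop.k6 {q : (Fin 3 → ℂ) × (Fin 3 → ℂ)} (h : Cop q) : Psi q ∈ K6 := by
  rintro x ⟨h0, h1, h2⟩
  rw [← H375.eval_PA, PA_Psi] at h0
  rw [← H375.eval_PA1, PA_Psi] at h1
  rw [← H375.eval_PA2, PA_Psi] at h2
  rw [eval_prod] at h0
  obtain ⟨k, -, hk⟩ := Finset.prod_eq_zero_iff.1 h0
  have hg0 := h.rest hk
  set g : ℂ[X] := ∏ l ∈ Finset.univ.erase k, qf q l with hg
  have he : ∏ l, qf q l = qf q k * g := (Finset.mul_prod_erase _ _ (Finset.mem_univ k)).symm
  rw [he, derivative_mul, eval_add, eval_mul, eval_mul, hk, zero_mul, add_zero] at h1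
  have h3 : (derivative (qf q k)).eval x = 0 := (mul_eq_zero.1 h1).resolve_right hg0
  rw [he, derivative_mul, derivative_add, derivative_mul, derivative_mul] at h2
  simp only [eval_add, eval_mul, hk, h3, eval_qf2, zero_mul, add_zero] at h2
  exact (mul_ne_zero two_ne_zero hg0) h2

/-- Simple roots. -/
theorem Cop.simple {q : (Fin 3 → ℂ) × (Fin 3 → ℂ)} (h : Cop q) (h0 : ∀ k, q.2 k ≠ 0) {x : ℂ}
    (hx : sx (Psi q) x = 0) : sx1 (Psi q) x ≠ 0 := by
  intro h1
  rw [← H375.eval_PA, PA_Psi, eval_prod] at hx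
  rw [← H375.eval_PA1, PA_Psi] at h1
  obtain ⟨k, -, hk⟩ := Finset.prod_eq_zero_iff.1 hx
  have hg0 := h.rest hk
  set g : ℂ[X] := ∏ l ∈ Finset.univ.erase k, qf q l with hg
  have he : ∏ l, qf q l = qf q k * g := (Finset.mul_prod_erase _ _ (Finset.mem_univ k)).symm
  rw [he, derivative_mul, eval_add, eval_mul, eval_mul, hk, zero_mul, add_zero] at h1
  have h3 : (derivative (qf q k)).eval x = 0 := (mul_eq_zero.1 h1).resolve_right hg0
  rw [eval_qf1] at h3
  rw [eval_qf] at hk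
  have h4 : x - q.1 k = 0 := (mul_eq_zero.1 h3).resolve_left two_ne_zero
  rw [h4] at hk
  apply h0 k
  linear_combination -hk

theorem an_Psi {A : Type*} [NormedAddCommGroup A] [NormedSpace ℂ A] {e ε : A → Fin 3 → ℂ} {p : A}
    (he : ∀ k, AnalyticAt ℂ (fun q => e q k) p) (hε : ∀ k, AnalyticAt ℂ (fun q => ε q k) p) :
    AnalyticAt ℂ (fun q => Psi (e q, ε q)) p := by
  refine analyticAt_pi_iff.2 fun i => ?_
  have : H724.CoefAn (fun q => ∏ k, ((X - Polynomial.C (e q k)) ^ 2 - Polynomial.C (ε q k))) p :=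
    H724.CoefAn.prod _ fun k _ =>
      (((H724.CoefAn.const _).sub (H724.CoefAn.C (he k))).pow 2).sub (H724.CoefAn.C (hε k))
  exact this i

end Poly

/-- The resultant of two factors. -/
def rs (q : (Fin 3 → ℂ) × (Fin 3 → ℂ)) (k l : Fin 3) : ℂ :=
  ((q.1 k - q.1 l) ^ 2 + q.2 k - q.2 l) ^ 2 - 4 * (q.1 k - q.1 l) ^ 2 * q.2 k

theorem cop_iff (q : (Fin 3 → ℂ) × (Fin 3 → ℂ)) : Cop q ↔ ∀ k l, k ≠ l → rs q k l ≠ 0 := by
  constructor
  · intro h k l hkl he
    unfold rs at he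
    obtain ⟨w, hw⟩ := IsAlgClosed.exists_pow_nat_eq (q.2 k) two_pos
    have h1 : ((q.1 k - q.1 l) ^ 2 + q.2 k - q.2 l - 2 * (q.1 k - q.1 l) * w) *
        ((q.1 k - q.1 l) ^ 2 + q.2 k - q.2 l + 2 * (q.1 k - q.1 l) * w) = 0 := by
      linear_combination he - 4 * (q.1 k - q.1 l) ^ 2 * hw
    rcases mul_eq_zero.1 h1 with h2 | h2
    · refine h k l hkl (q.1 k - w) ⟨?_, ?_⟩
      · linear_combination hw
      · linear_combination h2 + hw
    · refine h k l hkl (q.1 k + w) ⟨?_, ?_⟩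
      · linear_combination hw
      · linear_combination h2 + hw
  · rintro h k l hkl x ⟨h1, h2⟩
    apply h k l hkl
    unfold rs
    rw [← h1, ← h2]
    ring

theorem isOpen_cop : IsOpen {q | Cop q} := by
  have e : {q | Cop q} = ⋂ k, ⋂ l, {q | k ≠ l → rs q k l ≠ 0} := by
    ext q
    simp only [mem_setOf_eq, mem_iInter, cop_iff]
  rw [e]
  refine isOpen_iInter_of_finite fun k => isOpen_iInter_of_finite fun l => ?_
  by_cases hkl : k = l
  · simp [hkl]
  · have e2 : {q | k ≠ l → rs q k l ≠ 0} = {q | rs q k l ≠ 0} := by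
      ext q
      simp [hkl]
    rw [e2]
    refine isOpen_ne_fun ?_ continuous_const
    unfold rs
    fun_prop

theorem prod3 (k : Fin 3) (f : Fin 3 → ℂ) : ∏ l, f l = f k * (f (k + 1) * f (k + 2)) := by
  rw [Fin.prod_univ_three]
  fin_cases k
  · change f 0 * f 1 * f 2 = f 0 * (f 1 * f 2)
    ring
  · change f 0 * f 1 * f 2 = f 1 * (f 2 * f 0)
    ring
  · change f 0 * f 1 * f 2 = f 2 * (f 0 * f 1)
    ring

section Reg

variable {R : Region}

theorem an_c (k : Fin 3) (p : MU R) : AnalyticAt ℂ (fun q : MU R => q.2 k) p :=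
  ((ContinuousLinearMap.proj (R := ℂ) (φ := fun _ : Fin 3 => ℂ) k).comp
    (ContinuousLinearMap.snd ℂ R.Sp (Fin 3 → ℂ))).analyticAt p

theorem an_fst {f : R.Sp → ℂ} {p : MU R} (h : AnalyticAt ℂ f p.1) :
    AnalyticAt ℂ (fun q : MU R => f q.1) p :=
  AnalyticAt.comp (g := f) (f := fun q : MU R => q.1) h analyticAt_fst

theorem an_epsU (k : Fin 3) (p : MU R) : AnalyticAt ℂ (fun q : MU R => R.eps q.1 k) p :=
  an_fst (f := fun q => R.eps q k) (H724.an_eps k)

theorem an_aU (p : MU R) : AnalyticAt ℂ (aU R) p :=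
  an_Psi (e := fun q : MU R => q.2) (ε := fun q : MU R => R.eps q.1) (fun k => an_c k p)
    fun k => an_epsU k p

theorem posU_neck (p : MU R) {j : L} {k : Fin 3} (hj : R.pl j = Sum.inl k) :
    posU R p j = p.2 k + (R.XX p.1 k (R.rk j) + R.YY p.1 k (R.rk j)) / 2 := by
  rw [posU, H724.pos_neck p.1 hj, hj]
  simp only [Sum.elim_inl]
  ring

theorem posU_core (p : MU R) {j : L} {s : Bool} (hj : R.pl j = Sum.inr s) :
    posU R p j = R.pos p.1 j := by
  rw [posU, hj]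
  simp

theorem posU_ctr (p : R.Sp) (j : L) : posU R (p, ctr) j = R.pos p j := by
  unfold posU
  rcases R.pl j with k | s <;> simp

theorem an_posU (j : L) (p : MU R) : AnalyticAt ℂ (fun q : MU R => posU R q j) p := by
  unfold posU
  refine (an_fst (f := fun q => R.pos q j) (H724.an_pos j)).add ?_
  rcases R.pl j with k | s
  · exact (an_c k p).sub analyticAt_const
  · exact analyticAt_const

theorem an_psiU (p : MU R) : AnalyticAt ℂ (psiU R) p :=
  (an_aU p).prod (analyticAt_pi_iff.2 fun j => an_posU j p)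

theorem an_QU (k : Fin 3) (w : MU R × ℂ) :
    AnalyticAt ℂ (fun q : MU R × ℂ => QU R q.1 k q.2) w := by
  have h1 : ∀ l, AnalyticAt ℂ (fun q : MU R × ℂ => q.1.2 l) w := fun l =>
    AnalyticAt.comp (g := fun q : MU R => q.2 l) (f := fun q : MU R × ℂ => q.1) (an_c l _)
      analyticAt_fst
  have h2 : ∀ l, AnalyticAt ℂ (fun q : MU R × ℂ => R.eps q.1.1 l) w := fun l =>
    AnalyticAt.comp (g := fun q : MU R => R.eps q.1 l) (f := fun q : MU R × ℂ => q.1)
      (an_epsU l _) analyticAt_fst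
  unfold QU
  exact (((analyticAt_snd.sub (h1 _)).pow 2).sub (h2 _)).mul
    (((analyticAt_snd.sub (h1 _)).pow 2).sub (h2 _))

theorem sx_aU (p : MU R) (k : Fin 3) (x : ℂ) :
    sx (aU R p) x = ((x - p.2 k) ^ 2 - R.eps p.1 k) * QU R p k x := by
  rw [aU, sx_Psi, prod3 k]
  rfl

theorem an_pol {A : Type*} [NormedAddCommGroup A] [NormedSpace ℂ A] (s : Bool) {a : A → C6}
    {z : A → ℂ} {p : A} (ha : AnalyticAt ℂ a p) (hz : AnalyticAt ℂ z p) :
    AnalyticAt ℂ (fun q => pol s (a q) (z q)) p := by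
  have h1 : ∀ i, AnalyticAt ℂ (fun q => a q i) p := analyticAt_pi_iff.1 ha
  unfold pol
  cases s
  · simp only [Bool.false_eq_true, if_false, sx]
    exact (hz.pow 6).add (Finset.analyticAt_fun_sum _ fun i _ => (h1 i).mul (hz.pow _))
  · simp only [if_true, sw]
    exact analyticAt_const.add (Finset.analyticAt_fun_sum _ fun i _ => (h1 i).mul (hz.pow _))

end Reg

theorem csq_one : csq 1 = 1 := by simp [csq]

namespace UD

variable {D : UD}

theorem sg_neck (p : MU D.R) {j : L} {k : Fin 3} (hj : D.R.pl j = Sum.inl k) :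
    D.sg p j = D.G j k p (posU D.R p j) * (D.X p k j - D.Y p k j) / 2 := by
  rw [sg, hj]
  rfl

theorem sg_core (p : MU D.R) {j : L} {s : Bool} (hj : D.R.pl j = Sum.inr s) :
    D.sg p j = D.g j * csq (pol (D.S j) (aU D.R p) (posU D.R p j) /
      pol (D.S j) (aU D.R D.c) (posU D.R D.c j)) := by
  rw [sg, hj]
  rfl

theorem OK.Q0 (h : D.OK) {j : L} {k : Fin 3} (hj : D.R.pl j = Sum.inl k) :
    QU D.R D.c k (posU D.R D.c j) ≠ 0 := by
  rw [← h.gn j k hj]
  exact pow_ne_zero 2 (h.g0 j)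

theorem OK.P0 (h : D.OK) {j : L} {s : Bool} (hj : D.R.pl j = Sum.inr s) :
    pol (D.S j) (aU D.R D.c) (posU D.R D.c j) ≠ 0 := by
  rw [← h.gc j s hj]
  exact pow_ne_zero 2 (h.g0 j)

/-- The square of the branch, everywhere. -/
theorem OK.G_sq (h : D.OK) {j : L} {k : Fin 3} (hj : D.R.pl j = Sum.inl k) (p : MU D.R) (x : ℂ) :
    D.G j k p x ^ 2 = QU D.R p k x := by
  rw [G, mul_pow, H724.csq_sq, h.gn j k hj, mul_div_cancel₀ _ (h.Q0 hj)]

theorem OK.G_c (h : D.OK) {j : L} {k : Fin 3} (hj : D.R.pl j = Sum.inl k) :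
    D.G j k D.c (posU D.R D.c j) = D.g j := by
  rw [G, div_self (h.Q0 hj), csq_one, mul_one]

theorem OK.an_G (h : D.OK) {j : L} {k : Fin 3} (hj : D.R.pl j = Sum.inl k) :
    AnalyticAt ℂ (fun q : MU D.R × ℂ => D.G j k q.1 q.2) (D.c, posU D.R D.c j) := by
  unfold G
  refine analyticAt_const.mul (H724.analyticAt_csq
    ((an_QU k _).div analyticAt_const (h.Q0 hj)) ?_)
  change QU D.R D.c k (posU D.R D.c j) / QU D.R D.c k (posU D.R D.c j) ∈ Complex.slitPlane
  rw [div_self (h.Q0 hj)]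
  exact Complex.one_mem_slitPlane

theorem an_X (k : Fin 3) (j : L) (p : MU D.R) : AnalyticAt ℂ (fun q => D.X q k j) p :=
  an_fst (f := fun q => D.R.XX q k (D.R.rk j)) (H724.an_XX k _)

theorem an_Y (k : Fin 3) (j : L) (p : MU D.R) : AnalyticAt ℂ (fun q => D.Y q k j) p :=
  an_fst (f := fun q => D.R.YY q k (D.R.rk j)) (H724.an_YY k _)

theorem X_mul_Y (p : MU D.R) (k : Fin 3) (j : L) : D.X p k j * D.Y p k j = D.R.eps p.1 k :=
  H724.XX_mul_YY p.1 k _

theorem posU_XY (p : MU D.R) {j : L} {k : Fin 3} (hj : D.R.pl j = Sum.inl k) :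
    posU D.R p j = p.2 k + (D.X p k j + D.Y p k j) / 2 := posU_neck p hj

/-- The equation of the curve, everywhere. -/
theorem OK.sg_sq (h : D.OK) (p : MU D.R) (j : L) :
    D.sg p j ^ 2 = pol (D.S j) (aU D.R p) (posU D.R p j) := by
  rcases hj : D.R.pl j with k | s
  · rw [H724.neck_S h.far hj, sg_neck p hj]
    have e : pol false (aU D.R p) (posU D.R p j) = sx (aU D.R p) (posU D.R p j) := by simp [pol]
    rw [e, sx_aU p k, ← h.G_sq hj p, ← X_mul_Y p k j]
    have e2 : posU D.R p j - p.2 k = (D.X p k j + D.Y p k j) / 2 := by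
      rw [posU_XY p hj]
      ring
    rw [e2]
    ring
  · rw [sg_core p hj, mul_pow, H724.csq_sq, h.gc j s hj, mul_div_cancel₀ _ (h.P0 hj)]

theorem OK.sg_c_core (h : D.OK) {j : L} {s : Bool} (hj : D.R.pl j = Sum.inr s) :
    D.sg D.c j = D.g j := by
  rw [sg_core D.c hj, div_self (h.P0 hj), csq_one, mul_one]

theorem OK.sg_c_neck (h : D.OK) {j : L} {k : Fin 3} (hj : D.R.pl j = Sum.inl k) :
    D.sg D.c j = D.g j * (D.X D.c k j - D.Y D.c k j) / 2 := by
  rw [sg_neck D.c hj, h.G_c hj]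

theorem OK.an_Gp (h : D.OK) {j : L} {k : Fin 3} (hj : D.R.pl j = Sum.inl k) :
    AnalyticAt ℂ (fun q : MU D.R => D.G j k q (posU D.R q j)) D.c :=
  AnalyticAt.comp (g := fun q : MU D.R × ℂ => D.G j k q.1 q.2)
    (f := fun q : MU D.R => (q, posU D.R q j)) (h.an_G hj) (analyticAt_id.prod (an_posU j _))

theorem OK.an_sg (h : D.OK) (j : L) : AnalyticAt ℂ (fun q => D.sg q j) D.c := by
  rcases hj : D.R.pl j with k | s
  · have e : (fun q => D.sg q j) = fun q =>
        D.G j k q (posU D.R q j) * (D.X q k j - D.Y q k j) / 2 := funext fun q => sg_neck q hj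
    rw [e]
    exact ((h.an_Gp hj).mul ((an_X k j _).sub (an_Y k j _))).div analyticAt_const two_ne_zero
  · have e : (fun q => D.sg q j) = fun q => D.g j * csq (pol (D.S j) (aU D.R q) (posU D.R q j) /
        pol (D.S j) (aU D.R D.c) (posU D.R D.c j)) := funext fun q => sg_core q hj
    rw [e]
    refine analyticAt_const.mul (H724.analyticAt_csq
      ((an_pol _ (an_aU _) (an_posU j _)).div analyticAt_const (h.P0 hj)) ?_)
    change pol (D.S j) (aU D.R D.c) (posU D.R D.c j) /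
      pol (D.S j) (aU D.R D.c) (posU D.R D.c j) ∈ Complex.slitPlane
    rw [div_self (h.P0 hj)]
    exact Complex.one_mem_slitPlane

theorem OK.ev_cop (h : D.OK) : ∀ᶠ p in 𝓝 D.c, Cop (p.2, D.R.eps p.1) := by
  have hc : ContinuousAt (fun p : MU D.R => (p.2, D.R.eps p.1)) D.c :=
    continuousAt_snd.prodMk (continuousAt_pi.2 fun k => (an_epsU k _).continuousAt)
  exact hc.eventually (isOpen_cop.mem_nhds h.cop)

end UD

/-- **UAN.** -/
theorem uan : UAN := by
  intro D h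
  have h1 : ∀ᶠ p in 𝓝 D.c, ∀ j, AnalyticAt ℂ (fun q => D.sg q j) p :=
    eventually_all.2 fun j => (h.an_sg j).eventually_analyticAt
  have h2 : ∀ᶠ p in 𝓝 D.c, ∀ j s, D.R.pl j = Sum.inr s → D.sg p j ≠ 0 := by
    refine eventually_all.2 fun j => eventually_all.2 fun s => ?_
    by_cases hj : D.R.pl j = Sum.inr s
    · have h3 : D.sg D.c j ≠ 0 := by
        rw [h.sg_c_core hj]
        exact h.g0 j
      exact ((h.an_sg j).continuousAt.eventually_ne h3).mono fun p hp _ => hp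
    · exact Eventually.of_forall fun p e => absurd e hj
  have h3 : ∀ᶠ p in 𝓝 D.c, ∀ j k, D.R.pl j = Sum.inl k → D.G j k p (posU D.R p j) ≠ 0 ∧
      D.G j k p (posU D.R p j) ^ 2 = QU D.R p k (posU D.R p j) ∧
      AnalyticAt ℂ (fun q : MU D.R × ℂ => D.G j k q.1 q.2) (p, posU D.R p j) := by
    refine eventually_all.2 fun j => eventually_all.2 fun k => ?_
    by_cases hj : D.R.pl j = Sum.inl k
    · have h4 : D.G j k D.c (posU D.R D.c j) ≠ 0 := by
        rw [h.G_c hj]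
        exact h.g0 j
      have h5 : ContinuousAt (fun q : MU D.R => (q, posU D.R q j)) D.c :=
        continuousAt_id.prodMk (an_posU j _).continuousAt
      filter_upwards [(h.an_Gp hj).continuousAt.eventually_ne h4,
        h5.eventually (h.an_G hj).eventually_analyticAt] with p a1 a2 _
      exact ⟨a1, h.G_sq hj p _, a2⟩
    · exact Eventually.of_forall fun p e => absurd e hj
  filter_upwards [h.ev_cop, h1, h2, h3] with p a0 a1 a2 a3
  exact ⟨a0.k6, a0, an_psiU p, a1, h.sg_sq p, a2, a3⟩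

end Vale.Agent.P273SW

end
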