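import Vale.Agent.P273SW.UInv0

/-!
# P273S, block W, row UINV: the left inverse of the extension
-/

noncomputable section

namespace Vale.Agent.P273SW

open Set Filter Topology Vale.Agent.P273 H95 Vale.Agent.P273SG
open Vale.Agent.P273.H681 (C6)
open Vale.Agent.P273.H888 (Dist Far ept)
open scoped ComplexConjugate

/-- Centres and parameters. -/
abbrev CE : Type := (Fin 3 → ℂ) × (Fin 3 → ℂ)

def QQ (q : CE) (k : Fin 3) (x : ℂ) : ℂ :=
  ((x - q.1 (k + 1)) ^ 2 - q.2 (k + 1)) * ((x - q.1 (k + 2)) ^ 2 - q.2 (k + 2))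
def dQ (q : CE) (k : Fin 3) (x y : ℂ) : ℂ :=
  (x + y - 2 * q.1 (k + 1)) * ((x - q.1 (k + 2)) ^ 2 - q.2 (k + 2)) +
    ((y - q.1 (k + 1)) ^ 2 - q.2 (k + 1)) * (x + y - 2 * q.1 (k + 2))

namespace UD

variable (D : UD) (ι : C6 → CE)

def zu (j : L) (u : Amb) : ℂ := zc (D.S j) (u.2.1 j)
def vu (j : L) (u : Amb) : ℂ := vc (D.S j) (u.2.1 j)
def Gu (j : L) (k : Fin 3) (u : Amb) : ℂ :=
  D.g j * csq (QQ (ι u.1) k (D.zu j u) / QU D.R D.c k (posU D.R D.c j))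
def Xu (j : L) (k : Fin 3) (u : Amb) : ℂ :=
  D.zu j u - (ι u.1).1 k + D.vu j u / D.Gu ι j k u
def Yu (j : L) (k : Fin 3) (u : Amb) : ℂ :=
  D.zu j u - (ι u.1).1 k - D.vu j u / D.Gu ι j k u
def hu (i j : L) (k : Fin 3) (u : Amb) : ℂ :=
  dQ (ι u.1) k (D.zu i u) (D.zu j u) / (D.Gu ι i k u + D.Gu ι j k u) *
    (D.Xu ι j k u - D.Yu ι j k u) / 2
def Nu (i j : L) (k : Fin 3) (u : Amb) : ℂ :=
  (u.2.2 i j).1 * (D.uw D.c k i j).1 + (u.2.2 i j).2.1 * (D.uw D.c k i j).2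
def Du (i j : L) (k : Fin 3) (u : Amb) : ℂ :=
  conj (u.2.2 i j).2.1 * (D.uw D.c k i j).1 + (u.2.2 i j).2.2 * (D.uw D.c k i j).2
def den (i j : L) (k : Fin 3) (u : Amb) : ℂ :=
  D.Nu i j k u + D.Du i j k u * D.hu ι i j k u + D.Du i j k u * D.Gu ι i k u
def num (i j : L) (k : Fin 3) (u : Amb) : ℂ :=
  D.Nu i j k u + D.Du i j k u * D.hu ι i j k u - D.Du i j k u * D.Gu ι i k u
open Classical in
/-- The product of the gaps between two marks. -/
def rho (i j : L) (k : Fin 3) (u : Amb) : ℂ :=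
  if D.X D.c k i ≠ 0 then D.Xu ι j k u / D.Xu ι i k u
  else if D.Y D.c k j ≠ 0 then D.Yu ι i k u / D.Yu ι j k u
  else D.num ι i j k u / D.den ι i j k u
/-- One gap. -/
def gapf (k : Fin 3) (g : ℕ) (u : Amb) : ℂ :=
  if D.R.n k = 0 then (ι u.1).2 k
  else if g = 0 then D.Xu ι (mkr D.R k 0) k u
  else if g = D.R.n k then D.Yu ι (mkr D.R k (g - 1)) k u
  else D.rho ι (mkr D.R k (g - 1)) (mkr D.R k g) k u
/-- The inverse. -/
def lam (u : Amb) : MU D.R := ((fun g => D.gapf ι g.1 g.2 u, fun j => D.zu j u), (ι u.1).1)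

/-- The denominators are not zero. -/
structure Gd (u : Amb) : Prop where
  g : ∀ j k, D.R.pl j = Sum.inl k → D.Gu ι j k u ≠ 0
  x : ∀ j k, D.R.pl j = Sum.inl k → D.X D.c k j ≠ 0 → D.Xu ι j k u ≠ 0
  y : ∀ j k, D.R.pl j = Sum.inl k → D.Y D.c k j ≠ 0 → D.Yu ι j k u ≠ 0
  d : ∀ i j k, D.At i k → D.At j k → D.R.rk i < D.R.rk j → D.den ι i j k u ≠ 0
  s : ∀ i j k, D.At i k → D.At j k → D.Gu ι i k u + D.Gu ι j k u ≠ 0

/-- `u` has the coefficients and the marks of `q`. -/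
structure Rel (q : MU D.R) (u : Amb) : Prop where
  c : ι u.1 = (q.2, D.R.eps q.1)
  z : ∀ j, D.zu j u = posU D.R q j
  v : ∀ j k, D.R.pl j = Sum.inl k → D.vu j u = D.sg q j

variable {D ι} {q : MU D.R} {u : Amb} {i j : L} {k : Fin 3}

theorem Rel.G (h : D.Rel ι q u) (j : L) (k : Fin 3) :
    D.Gu ι j k u = D.G j k q (posU D.R q j) := by
  rw [Gu, h.c, h.z]
  rfl

theorem Rel.X (h : D.Rel ι q u) (hj : D.R.pl j = Sum.inl k) (h0 : D.Gu ι j k u ≠ 0) :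
    D.Xu ι j k u = D.X q k j := by
  rw [Xu, h.v j k hj, sg_neck q hj, ← h.G, h.c, h.z, posU_XY q hj]
  field_simp
  ring

theorem Rel.Y (h : D.Rel ι q u) (hj : D.R.pl j = Sum.inl k) (h0 : D.Gu ι j k u ≠ 0) :
    D.Yu ι j k u = D.Y q k j := by
  rw [Yu, h.v j k hj, sg_neck q hj, ← h.G, h.c, h.z, posU_XY q hj]
  field_simp
  ring

theorem Rel.nd (h : D.Rel ι q u) (hj : D.R.pl j = Sum.inl k) (h0 : D.Gu ι j k u ≠ 0) {r : ℝ}
    (e : u.2.2 i j = r • pr1 (D.uw q k i j)) :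
    D.den ι i j k u = 2 * (r * (n2 (D.uw q k i j))⁻¹ * (conj (D.uw q k i j).1 * (D.uw D.c k i j).1 +
      conj (D.uw q k i j).2 * (D.uw D.c k i j).2)) * D.Gu ι i k u ∧
    D.num ι i j k u = H724.mu D.R q.1 i j * D.den ι i j k u := by
  obtain ⟨h1, h2⟩ := pr1_apply r (D.uw q k i j) (D.uw D.c k i j)
  rw [← e] at h1 h2
  have h3 : D.hu ι i j k u = D.gd q k i j * (D.X q k j - D.Y q k j) / 2 := by
    rw [hu, h.X hj h0, h.Y hj h0, h.G, h.G, h.c, h.z, h.z]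
    rfl
  rw [den, num, Nu, Du, h1, h2, h3, h.G]
  generalize (r : ℂ) * (n2 (D.uw q k i j))⁻¹ * (conj (D.uw q k i j).1 * (D.uw D.c k i j).1 +
      conj (D.uw q k i j).2 * (D.uw D.c k i j).2) = t
  simp only [uw]
  constructor <;> ring

theorem at_of (hi : D.R.pl i = Sum.inl k) (hj : D.R.pl j = Sum.inl k) (hr : D.R.rk i < D.R.rk j)
    (hX : D.X D.c k i = 0) (hY : D.Y D.c k j = 0) : D.At i k ∧ D.At j k := by
  refine ⟨⟨hi, hX, ?_⟩, hj, ?_, hY⟩
  · exact (H724.YY_mu D.c.1 hi hr.le).trans (mul_eq_zero_of_right _ hY)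
  · exact (H724.XX_mu D.c.1 hi hr.le).trans (mul_eq_zero_of_right _ hX)

/-- The pairs of marks at a node have the slopes of `q`. -/
def Sl (D : UD) (q : MU D.R) (u : Amb) : Prop :=
  ∀ i j k, D.At i k → D.At j k → D.R.rk i < D.R.rk j →
    ∃ r : ℝ, u.2.2 i j = r • pr1 (D.uw q k i j)

theorem Rel.rho (h : D.Rel ι q u) (hs : D.Sl q u) (hg : D.Gd ι u) (hi : D.R.pl i = Sum.inl k)
    (hj : D.R.pl j = Sum.inl k) (hr : D.R.rk i < D.R.rk j) :
    D.rho ι i j k u = H724.mu D.R q.1 i j := by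
  unfold UD.rho
  split_ifs with h1 h2
  · have h3 := hg.x i k hi h1
    rw [h.X hi (hg.g i k hi)] at h3
    rw [h.X hi (hg.g i k hi), h.X hj (hg.g j k hj), div_eq_iff h3]
    exact H724.XX_mu q.1 hi hr.le
  · have h3 := hg.y j k hj h2
    rw [h.Y hj (hg.g j k hj)] at h3
    rw [h.Y hi (hg.g i k hi), h.Y hj (hg.g j k hj), div_eq_iff h3]
    exact H724.YY_mu q.1 hi hr.le
  · obtain ⟨ai, aj⟩ := at_of hi hj hr (not_not.1 h1) (not_not.1 h2)
    obtain ⟨r, e⟩ := hs i j k ai aj hr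
    rw [(h.nd hj (hg.g j k hj) e).2, mul_div_cancel_right₀ _ (hg.d i j k ai aj hr)]

theorem Rel.lam (h : D.Rel ι q u) (hs : D.Sl q u) (hg : D.Gd ι u) : D.lam ι u = q := by
  refine Prod.ext (Prod.ext (funext fun g => ?_) (funext fun j => ?_)) (congrArg Prod.fst h.c)
  · obtain ⟨k, g⟩ := g
    have hl := g.2
    change D.gapf ι k g u = q.1.1 ⟨k, g⟩
    unfold gapf
    split_ifs with h1 h2 h3
    · rw [h.c]
      refine Finset.prod_eq_single (f := fun g => q.1.1 ⟨k, g⟩) g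
        (fun b _ hb => absurd (Fin.ext ?_) hb) fun h0 => absurd (Finset.mem_univ g) h0
      have := b.2
      omega
    · obtain ⟨a1, a2⟩ := mkr_spec D.R k (Nat.pos_of_ne_zero h1)
      rw [h.X a1 (hg.g _ k a1), UD.X, a2]
      exact prod_one (fun g => q.1.1 ⟨k, g⟩) (fun l => l ≤ 0) g fun b => by
        rw [Fin.ext_iff]
        omega
    · obtain ⟨a1, a2⟩ := mkr_spec D.R k (i := g - 1) (by omega)
      rw [h.Y a1 (hg.g _ k a1), UD.Y, a2]
      exact prod_one (fun g => q.1.1 ⟨k, g⟩) (fun l => (g : ℕ) - 1 < l) g fun b => by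
        have := b.2
        rw [Fin.ext_iff]
        omega
    · obtain ⟨a1, a2⟩ := mkr_spec D.R k (i := g - 1) (by omega)
      obtain ⟨a3, a4⟩ := mkr_spec D.R k (i := g) (by omega)
      rw [h.rho hs hg a1 a3 (by omega), H724.mu_eq q.1 a1, a2, a4]
      exact prod_one (fun g => q.1.1 ⟨k, g⟩) (fun l => (g : ℕ) - 1 < l ∧ l ≤ g) g fun b => by
        rw [Fin.ext_iff]
        omega
  · obtain ⟨j, hj⟩ := j
    obtain ⟨s, e⟩ := Sum.isRight_iff.1 hj
    change D.zu j u = q.1.2 ⟨j, hj⟩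
    rw [h.z, posU_core q e, H724.pos_core q.1 e]

/-! ### The values of the extension -/

theorem rel_eU {p : MU D.R} (h : ι (aU D.R p) = (p.2, D.R.eps p.1)) : D.Rel ι p (D.eU p) :=
  ⟨h, fun _ => zc_pt4 _ _ _, fun _ _ _ => vc_pt4 _ _ _⟩

theorem eU_at (p : MU D.R) (ai : D.At i k) (aj : D.At j k) (hr : D.R.rk i < D.R.rk j) :
    (D.eU p).2.2 i j = cc D.S (psiU D.R p) (D.sg p) i j • pr1 (D.uw p k i j) := by
  have hij : i ≠ j := fun e => by
    rw [e] at hr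
    exact lt_irrefl _ hr
  have h1 : i ≠ j ∧ ∃ k, D.At i k ∧ D.At j k := ⟨hij, k, ai, aj⟩
  have e1 : h1.2.choose = k := Sum.inl_injective (h1.2.choose_spec.1.1.symm.trans ai.1)
  rw [eU_pair, dif_pos h1, e1, uw', if_pos hr]

theorem sl_eU (p : MU D.R) : D.Sl p (D.eU p) := fun _ _ _ ai aj hr => ⟨_, eU_at p ai aj hr⟩

theorem At.root (ai : D.At i k) : sx (aU D.R D.c) (posU D.R D.c i) = 0 := by
  rw [sx_aU D.c k, posU_XY D.c ai.1, ← X_mul_Y D.c k i, ai.2.1, ai.2.2]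
  simp

theorem gd_base (hD : D.OK) (hc : D.Rel ι D.c (D.eU D.c)) : D.Gd ι (D.eU D.c) := by
  have hG : ∀ j k, D.R.pl j = Sum.inl k → D.Gu ι j k (D.eU D.c) = D.g j := fun j k hj => by
    rw [hc.G, hD.G_c hj]
  have h0 : ∀ j k, D.R.pl j = Sum.inl k → D.Gu ι j k (D.eU D.c) ≠ 0 := fun j k hj => by
    rw [hG j k hj]
    exact hD.g0 j
  refine ⟨h0, fun j k hj hX => ?_, fun j k hj hY => ?_, fun i j k ai aj hr => ?_,
    fun i j k ai aj => ?_⟩
  · rwa [hc.X hj (h0 j k hj)]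
  · rwa [hc.Y hj (h0 j k hj)]
  · have h1 := n2_ne (uw_base hD ai aj)
    have h2 : conj (D.uw D.c k i j).1 * (D.uw D.c k i j).1 +
        conj (D.uw D.c k i j).2 * (D.uw D.c k i j).2 = n2 (D.uw D.c k i j) := by
      rw [n2]
      ring
    have h3 : 0 < cc D.S (psiU D.R D.c) (D.sg D.c) i j := by
      rw [cc, H724.neck_S hD.far ai.1, H724.neck_S hD.far aj.1]
      exact mul_pos (cut_pos ai.root _) (cut_pos aj.root _)
    rw [(hc.nd aj.1 (h0 j k aj.1) (eU_at D.c ai aj hr)).1, h2]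
    exact mul_ne_zero (mul_ne_zero two_ne_zero (mul_ne_zero (mul_ne_zero
      (Complex.ofReal_ne_zero.2 h3.ne') (inv_ne_zero h1)) h1)) (h0 i k ai.1)
  · rw [hG i k ai.1, hG j k aj.1, ← hD.gs i j k ai aj, ← two_mul]
    exact mul_ne_zero two_ne_zero (hD.g0 i)

/-! ### Continuity near the base point -/

section cont

variable {w : Amb}

theorem ec_dn (hw : ∀ j, dn (D.S j) (w.2.1 j) ≠ 0) (j : L) :
    ∀ᶠ u : Amb in 𝓝 w, dn (D.S j) (u.2.1 j) ≠ 0 :=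
  (((continuous_dn (D.S j)).comp (f := fun w : Amb => w.2.1 j)
    (by fun_prop)).continuousAt).eventually_ne (hw j)

theorem ec_zu (hw : ∀ j, dn (D.S j) (w.2.1 j) ≠ 0) (j : L) : EC (D.zu j) w :=
  (ec_dn hw j).mono fun _ hu =>
    ContinuousAt.comp (f := fun u : Amb => u.2.1 j) (continuousAt_zc hu) (by fun_prop)

theorem ec_vu (hw : ∀ j, dn (D.S j) (w.2.1 j) ≠ 0) (j : L) : EC (D.vu j) w :=
  (ec_dn hw j).mono fun _ hu =>
    ContinuousAt.comp (f := fun u : Amb => u.2.1 j) (continuousAt_vc hu) (by fun_prop)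

/-- The hypotheses at the base point. -/
structure Bs (D : UD) (ι : C6 → CE) (w : Amb) : Prop where
  ok : D.OK
  dn : ∀ j, dn (D.S j) (w.2.1 j) ≠ 0
  ec : EC (fun u : Amb => ι u.1) w
  rel : D.Rel ι D.c w
  gd : D.Gd ι w

theorem Bs.e (h : Bs D ι w) (k : Fin 3) : EC (fun u : Amb => (ι u.1).1 k) w :=
  EC.cont (g := fun q : CE => q.1 k) (by fun_prop) h.ec

theorem Bs.G (h : Bs D ι w) (hj : D.R.pl j = Sum.inl k) : EC (D.Gu ι j k) w := by
  have h0 : Continuous fun x : CE × ℂ => QQ x.1 k x.2 := by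
    unfold QQ
    fun_prop
  have h1 : EC (fun u : Amb => QQ (ι u.1) k (D.zu j u)) w :=
    EC.cont (f := fun u : Amb => (ι u.1, D.zu j u)) h0 (h.ec.prod (ec_zu h.dn j))
  refine (EC.of_cont continuous_const).mul (EC.root
    (h1.div (EC.of_cont continuous_const) (h.ok.Q0 hj)) ?_)
  rw [h.rel.c, h.rel.z]
  exact div_self (h.ok.Q0 hj)

theorem Bs.X (h : Bs D ι w) (hj : D.R.pl j = Sum.inl k) : EC (D.Xu ι j k) w :=
  ((ec_zu h.dn j).sub (h.e k)).add ((ec_vu h.dn j).div (h.G hj) (h.gd.g j k hj))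

theorem Bs.Y (h : Bs D ι w) (hj : D.R.pl j = Sum.inl k) : EC (D.Yu ι j k) w :=
  ((ec_zu h.dn j).sub (h.e k)).sub ((ec_vu h.dn j).div (h.G hj) (h.gd.g j k hj))

theorem Bs.h (h : Bs D ι w) (ai : D.At i k) (aj : D.At j k) : EC (D.hu ι i j k) w := by
  have h0 : Continuous fun x : CE × ℂ × ℂ => dQ x.1 k x.2.1 x.2.2 := by
    unfold dQ
    fun_prop
  have h1 : EC (fun u : Amb => dQ (ι u.1) k (D.zu i u) (D.zu j u)) w :=
    EC.cont (f := fun u : Amb => (ι u.1, D.zu i u, D.zu j u)) h0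
      (h.ec.prod ((ec_zu h.dn i).prod (ec_zu h.dn j)))
  exact ((h1.div ((h.G ai.1).add (h.G aj.1)) (h.gd.s i j k ai aj)).mul
    ((h.X aj.1).sub (h.Y aj.1))).div (EC.of_cont continuous_const) two_ne_zero

theorem ec_Nu : EC (D.Nu i j k) w := EC.of_cont (by unfold Nu; fun_prop)

theorem ec_Du : EC (D.Du i j k) w := EC.of_cont (by unfold Du; fun_prop)

theorem Bs.den (h : Bs D ι w) (ai : D.At i k) (aj : D.At j k) : EC (D.den ι i j k) w :=
  (ec_Nu.add (ec_Du.mul (h.h ai aj))).add (ec_Du.mul (h.G ai.1))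

theorem Bs.num (h : Bs D ι w) (ai : D.At i k) (aj : D.At j k) : EC (D.num ι i j k) w :=
  (ec_Nu.add (ec_Du.mul (h.h ai aj))).sub (ec_Du.mul (h.G ai.1))

theorem Bs.rho (h : Bs D ι w) (hi : D.R.pl i = Sum.inl k) (hj : D.R.pl j = Sum.inl k)
    (hr : D.R.rk i < D.R.rk j) : EC (D.rho ι i j k) w := by
  unfold UD.rho
  by_cases h1 : D.X D.c k i ≠ 0
  · simp only [if_pos h1]
    exact (h.X hj).div (h.X hi) (h.gd.x i k hi h1)
  · by_cases h2 : D.Y D.c k j ≠ 0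
    · simp only [if_neg h1, if_pos h2]
      exact (h.Y hi).div (h.Y hj) (h.gd.y j k hj h2)
    · simp only [if_neg h1, if_neg h2]
      obtain ⟨ai, aj⟩ := at_of hi hj hr (not_not.1 h1) (not_not.1 h2)
      exact (h.num ai aj).div (h.den ai aj) (h.gd.d i j k ai aj hr)

theorem Bs.gap (h : Bs D ι w) (k : Fin 3) {g : ℕ} (hg : g < D.R.n k + 1) :
    EC (D.gapf ι k g) w := by
  unfold gapf
  by_cases h1 : D.R.n k = 0
  · simp only [if_pos h1]
    exact EC.cont (g := fun q : CE => q.2 k) (by fun_prop) h.ec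
  · by_cases h2 : g = 0
    · simp only [if_neg h1, if_pos h2]
      exact h.X (mkr_spec D.R k (Nat.pos_of_ne_zero h1)).1
    · by_cases h3 : g = D.R.n k
      · simp only [if_neg h1, if_neg h2, if_pos h3]
        exact h.Y (mkr_spec D.R k (by omega)).1
      · simp only [if_neg h1, if_neg h2, if_neg h3]
        obtain ⟨a1, a2⟩ := mkr_spec D.R k (i := g - 1) (by omega)
        obtain ⟨a3, a4⟩ := mkr_spec D.R k (i := g) (by omega)
        exact h.rho a1 a3 (by omega)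

theorem Bs.lam (h : Bs D ι w) : EC (D.lam ι) w :=
  ((EC.pi fun g : D.R.Gap => h.gap g.1 g.2.2).prod
    (EC.pi fun j : D.R.Cm => ec_zu h.dn j)).prod (EC.cont continuous_fst h.ec)

theorem Bs.ev (h : Bs D ι w) : ∀ᶠ u in 𝓝 w, D.Gd ι u := by
  have h1 : ∀ᶠ u in 𝓝 w, ∀ j k, D.R.pl j = Sum.inl k → D.Gu ι j k u ≠ 0 := by
    simp only [eventually_all]
    exact fun j k hj => (h.G hj).at'.eventually_ne (h.gd.g j k hj)
  have h2 : ∀ᶠ u in 𝓝 w, ∀ j k, D.R.pl j = Sum.inl k → D.X D.c k j ≠ 0 → D.Xu ι j k u ≠ 0 := by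
    simp only [eventually_all]
    exact fun j k hj h0 => (h.X hj).at'.eventually_ne (h.gd.x j k hj h0)
  have h3 : ∀ᶠ u in 𝓝 w, ∀ j k, D.R.pl j = Sum.inl k → D.Y D.c k j ≠ 0 → D.Yu ι j k u ≠ 0 := by
    simp only [eventually_all]
    exact fun j k hj h0 => (h.Y hj).at'.eventually_ne (h.gd.y j k hj h0)
  have h4 : ∀ᶠ u in 𝓝 w, ∀ i j k, D.At i k → D.At j k → D.R.rk i < D.R.rk j →
      D.den ι i j k u ≠ 0 := by
    simp only [eventually_all]
    exact fun i j k ai aj hr => (h.den ai aj).at'.eventually_ne (h.gd.d i j k ai aj hr)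
  have h5 : ∀ᶠ u in 𝓝 w, ∀ i j k, D.At i k → D.At j k → D.Gu ι i k u + D.Gu ι j k u ≠ 0 := by
    simp only [eventually_all]
    exact fun i j k ai aj => ((h.G ai.1).add (h.G aj.1)).at'.eventually_ne (h.gd.s i j k ai aj)
  filter_upwards [h1, h2, h3, h4, h5] with u a1 a2 a3 a4 a5 using ⟨a1, a2, a3, a4, a5⟩

end cont

/-! ### Generic points -/

theorem exists_rel (hD : D.OK) {e : E} {v : L → ℂ}
    (hs : ∀ x, sx e.1 x = 0 → sx1 e.1 x ≠ 0) (hv : OnC D.S e.1 e.2 v) (ha : Psi (ι e.1) = e.1)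
    (hg : D.Gd ι (eG D.S e v)) :
    ∃ q, aU D.R q = e.1 ∧ posU D.R q = e.2 ∧ D.Rel ι q (eG D.S e v) ∧ D.Sl q (eG D.S e v) := by
  obtain ⟨u, hu⟩ : ∃ u, u = eG D.S e v := ⟨_, rfl⟩
  rw [← hu] at hg ⊢
  have h1 : u.1 = e.1 := by rw [hu]; rfl
  have hz : ∀ j, D.zu j u = e.2 j := fun j => by rw [hu]; exact zc_pt4 _ _ _
  have hw : ∀ j, D.vu j u = v j := fun j => by rw [hu]; exact vc_pt4 _ _ _
  have hε : ∀ k, (ι e.1).2 k ≠ 0 := fun k h0 => by
    have h2 := sx1_node (ι e.1) k h0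
    rw [ha] at h2
    exact hs _ h2.1 h2.2
  have hXY : ∀ j k, D.R.pl j = Sum.inl k → D.Xu ι j k u * D.Yu ι j k u = (ι e.1).2 k := by
    intro j k hj
    have h2 : D.Gu ι j k u ^ 2 = QQ (ι e.1) k (e.2 j) := by
      rw [Gu, mul_pow, H724.csq_sq, hD.gn j k hj, mul_div_cancel₀ _ (hD.Q0 hj), h1, hz]
    have h3 : v j ^ 2 = ((e.2 j - (ι e.1).1 k) ^ 2 - (ι e.1).2 k) * D.Gu ι j k u ^ 2 := by
      have h4 := sx_Psi (ι e.1) (e.2 j)
      rw [ha, prod3 k] at h4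
      rw [(hv j).1, H724.neck_S hD.far hj, h2]
      exact h4
    have h5 := hg.g j k hj
    rw [Xu, Yu, h1, hz, hw]
    field_simp
    linear_combination -h3
  have hX : ∀ j k, D.R.pl j = Sum.inl k → D.Xu ι j k u ≠ 0 := fun j k hj =>
    left_ne_zero_of_mul ((hXY j k hj).symm ▸ hε k)
  obtain ⟨γ, g1, g2⟩ := exists_gaps D.R (ι e.1).2 (fun j k => D.Xu ι j k u) hX fun j => e.2 j
  obtain ⟨q, hq⟩ : ∃ q : MU D.R, q = ((γ, fun j : D.R.Cm => e.2 j), (ι e.1).1) := ⟨_, rfl⟩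
  have q1 : D.R.eps q.1 = (ι e.1).2 := by rw [hq]; exact g1
  have q2 : q.2 = (ι e.1).1 := by rw [hq]
  have q3 : ∀ j k, D.R.pl j = Sum.inl k → D.X q k j = D.Xu ι j k u := fun j k hj => by
    rw [hq]; exact g2 j k hj
  have q4 : ∀ j k, D.R.pl j = Sum.inl k → D.Y q k j = D.Yu ι j k u := fun j k hj => by
    refine mul_left_cancel₀ (hX j k hj) ?_
    rw [hXY j k hj, ← q3 j k hj, X_mul_Y, q1]
  have q5 : ∀ j, posU D.R q j = e.2 j := by
    intro j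
    rcases hj : D.R.pl j with k | s
    · rw [posU_XY q hj, q3 j k hj, q4 j k hj, q2, Xu, Yu, h1, hz]
      ring
    · rw [posU_core q hj, H724.pos_core q.1 hj, hq]
  have q6 : ι u.1 = (q.2, D.R.eps q.1) := by rw [q1, q2, h1]
  have q7 : ∀ j k, D.G j k q (posU D.R q j) = D.Gu ι j k u := fun j k => by
    rw [Gu, q6, hz, q5]
    rfl
  have q8 : ∀ j k, D.R.pl j = Sum.inl k → D.sg q j = v j := fun j k hj => by
    have h5 := hg.g j k hj
    rw [sg_neck q hj, q7, q3 j k hj, q4 j k hj, Xu, Yu, hw]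
    field_simp
    ring
  have q9 : aU D.R q = e.1 := by rw [aU, ← q6, h1, ha]
  refine ⟨q, q9, funext q5, ⟨q6, fun j => by rw [hz, q5], fun j k hj => by rw [hw, q8 j k hj]⟩,
    fun i j k ai aj hr => ⟨cc D.S e v i j, ?_⟩⟩
  have hij : i ≠ j := fun e => by
    rw [e] at hr
    exact lt_irrefl _ hr
  obtain ⟨s, t, b1, b2⟩ := par_uw D q hD.far ai.1 aj.1 hr (hD.G_sq ai.1 q _) (hD.G_sq aj.1 q _)
    (by rw [q7, q7]; exact hg.s i j k ai aj)
  have b3 : uu D.S e v i j = uu D.S (psiU D.R q) (D.sg q) i j := by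
    simp only [uu, psiU, q5, q8 i k ai.1, q8 j k aj.1]
  have b4 : uv D.S e v i j = uv D.S (psiU D.R q) (D.sg q) i j := by
    simp only [uv, psiU, q5, q9, q8 i k ai.1, q8 j k aj.1]
  have b5 : n2 (uu D.S e v i j) + n2 (uv D.S e v i j) ≠ 0 :=
    n2_pair_ne (by simp [H724.neck_S hD.far ai.1]) (by simp [H724.neck_S hD.far aj.1])
      (Or.inl (hv i).2)
  rw [b3, b4, b1, b2] at b5
  rw [hu]
  change pair D.S e v i j = _
  rw [pair, if_neg hij, b3, b4, b1, b2, pr2_par b5]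

end UD

/-- **UINV.** -/
theorem uinv (hP : PSI) : UINV := by
  intro D hD O hO
  obtain ⟨V, ι, hV, hcV, hι, hιc, hΨ, hev⟩ := hP _ hD.cop
  have hr : D.Rel ι D.c (D.eU D.c) := UD.rel_eU hιc
  have hB : UD.Bs D ι (D.eU D.c) := by
    refine ⟨hD, fun j => dn_pt4 _ _ _, EC.comp (g := ι) ?_ (EC.of_cont continuous_fst), hr,
      UD.gd_base hD hr⟩
    filter_upwards [hV.mem_nhds hcV] with a ha using hι.continuousAt (hV.mem_nhds ha)
  have hl : D.lam ι (D.eU D.c) = D.c := hr.lam (UD.sl_eU _) hB.gd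
  have hc : ContinuousAt (fun p : MU D.R => (p.2, D.R.eps p.1)) D.c :=
    continuousAt_snd.prodMk (continuousAt_pi.2 fun k => (an_epsU k _).continuousAt)
  obtain ⟨O', h1, hO', hcO⟩ := eventually_nhds_iff.1 (Filter.Eventually.and hO (hc.eventually hev))
  have hlt : Tendsto (D.lam ι) (𝓝 (D.eU D.c)) (𝓝 D.c) := by
    have := hB.lam.at'
    rwa [ContinuousAt, hl] at this
  have h2 : ∀ᶠ u in 𝓝 (D.eU D.c), ∀ j s, D.R.pl j = Sum.inr s →
      D.vu j u + D.sg (D.lam ι u) j ≠ 0 := by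
    simp only [eventually_all]
    intro j s hj
    have h3 : Tendsto (fun u => D.vu j u + D.sg (D.lam ι u) j) (𝓝 (D.eU D.c))
        (𝓝 (D.vu j (D.eU D.c) + D.sg D.c j)) :=
      (UD.ec_vu hB.dn j).at'.tendsto.add ((hD.an_sg j).continuousAt.tendsto.comp hlt)
    refine h3.eventually_ne ?_
    have h4 : D.vu j (D.eU D.c) = D.sg D.c j := vc_pt4 _ _ _
    rw [h4, hD.sg_c_core hj, ← two_mul]
    exact mul_ne_zero two_ne_zero (hD.g0 j)
  have h3 : ∀ᶠ u : Amb in 𝓝 (D.eU D.c), u.1 ∈ V :=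
    continuousAt_fst.eventually (hV.mem_nhds hcV)
  obtain ⟨N, h4, hN, hcN⟩ := eventually_nhds_iff.1
    (Filter.Eventually.and hB.lam (hB.ev.and (h2.and (h3.and
      (hlt.eventually (hO'.mem_nhds hcO))))))
  refine ⟨O', N, D.lam ι, hO', hcO, fun p hp => (h1 p hp).1, hN, hcN,
    fun u hu => (h4 u hu).1.continuousWithinAt, fun u hu => (h4 u hu).2.2.2.2,
    fun p hp hu => (UD.rel_eU (h1 p hp).2).lam (UD.sl_eU p) (h4 _ hu).2.1, ?_⟩
  intro S e v hg hu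
  have h0 : ∀ j, S j ≠ D.S j → e.2 j ≠ 0 := fun j _ => hg.2.2.1 j
  have hC := H894.onC_flip h0 hg.2.1
  have he : eG S e v = eG D.S (H95.flip S D.S e) (flipv S D.S e.2 v) :=
    egs S D.S e _ v _ rfl fun j => H888.flip_same (h0 j)
  have he1 : (H95.flip S D.S e).1 = e.1 := rfl
  generalize H95.flip S D.S e = e' at hC he he1
  generalize flipv S D.S e.2 v = v' at hC he
  obtain ⟨-, a2, a3, a4, -⟩ := h4 _ hu
  have a5 : e'.1 ∈ V := he1 ▸ a4
  rw [he] at a2 a3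
  obtain ⟨q, q1, q2, q3, q4⟩ := UD.exists_rel hD (he1 ▸ hg.1) hC (hΨ _ a5) a2
  have q5 := q3.lam q4 a2
  rw [q5] at a3
  have q6 : D.lam ι (eG S e v) = q := by rw [he, q5]
  rw [q6]
  refine ⟨q1.trans he1, fun j => pt4_eq_iff.1 ?_⟩
  have b1 : D.vu j (eG D.S e' v') = v' j := vc_pt4 _ _ _
  have b2 : D.sg q j = v' j := by
    rcases hj : D.R.pl j with k | s
    · rw [← q3.v j k hj, b1]
    · have b3 := a3 j s hj
      have b4 := hD.sg_sq q j
      rw [b1] at b3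
      rw [q1, q2, ← (hC j).1] at b4
      refine mul_left_cancel₀ b3 ?_
      linear_combination b4
  rw [b2, q2]
  exact (congrArg (fun u : Amb => u.2.1 j) he).symm

end Vale.Agent.P273SW

end
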