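import Vale.Agent.P273SW.UAn
import Vale.Agent.P273SW.Uext
import Vale.Agent.P273SG.Gen

/-!
# P273S, block W, row UINV: general lemmas
-/

noncomputable section

namespace Vale.Agent.P273SW

open Set Filter Topology Vale.Agent.P273 H95
open Vale.Agent.P273.H681 (C6)
open Vale.Agent.P273.H888 (ept)
open scoped ComplexConjugate

/-! ### Functions continuous near a point -/

/-- Continuous near `w`. -/
def EC {X Y : Type} [TopologicalSpace X] [TopologicalSpace Y] (f : X → Y) (w : X) : Prop :=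
  ∀ᶠ u in 𝓝 w, ContinuousAt f u

namespace EC

variable {X Y Z : Type} [TopologicalSpace X] [TopologicalSpace Y] [TopologicalSpace Z] {w : X}

theorem at' {f : X → Y} (h : EC f w) : ContinuousAt f w := h.self_of_nhds

theorem of_cont {f : X → Y} (h : Continuous f) : EC f w :=
  Eventually.of_forall fun _ => h.continuousAt

theorem comp {g : Y → Z} {f : X → Y} (hg : EC g (f w)) (hf : EC f w) :
    EC (fun u => g (f u)) w := by
  filter_upwards [hf.at'.eventually hg, hf] with u h1 h2 using h1.comp h2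

theorem cont {g : Y → Z} {f : X → Y} (hg : Continuous g) (hf : EC f w) :
    EC (fun u => g (f u)) w := comp (of_cont hg) hf

theorem prod {f : X → Y} {g : X → Z} (hf : EC f w) (hg : EC g w) :
    EC (fun u => (f u, g u)) w := by
  filter_upwards [hf, hg] with u h1 h2 using h1.prodMk h2

theorem pi {I : Type} [Finite I] {f : X → I → Y} (h : ∀ i, EC (fun u => f u i) w) : EC f w := by
  filter_upwards [eventually_all.2 h] with u h1 using continuousAt_pi.2 h1

variable {f g : X → ℂ}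

theorem add (hf : EC f w) (hg : EC g w) : EC (fun u => f u + g u) w := by
  filter_upwards [hf, hg] with u h1 h2 using h1.add h2

theorem sub (hf : EC f w) (hg : EC g w) : EC (fun u => f u - g u) w := by
  filter_upwards [hf, hg] with u h1 h2 using h1.sub h2

theorem mul (hf : EC f w) (hg : EC g w) : EC (fun u => f u * g u) w := by
  filter_upwards [hf, hg] with u h1 h2 using h1.mul h2

theorem div (hf : EC f w) (hg : EC g w) (h0 : g w ≠ 0) : EC (fun u => f u / g u) w := by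
  filter_upwards [hf, hg, hg.at'.eventually_ne h0] with u h1 h2 h3 using h1.div h2 h3

theorem root (hf : EC f w) (h1 : f w = 1) : EC (fun u => csq (f u)) w := by
  refine comp (g := csq) ?_ hf
  rw [h1]
  filter_upwards [Complex.isOpen_slitPlane.mem_nhds Complex.one_mem_slitPlane] with z hz
  exact continuousAt_cpow_const hz

end EC

/-! ### The cut-off is positive at the roots -/

theorem cut_pos {a : C6} {z : ℂ} (h : sx a z = 0) (v : ℂ) : 0 < cut a (pt4 false z v) := by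
  have hA : ∀ i, ‖a i‖ ^ 2 ≤ ∑ i, Complex.normSq (a i) := fun i => by
    rw [← Complex.normSq_eq_norm_sq]
    exact Finset.single_le_sum (f := fun i => Complex.normSq (a i))
      (fun i _ => Complex.normSq_nonneg _) (Finset.mem_univ i)
  have hA0 : 0 ≤ ∑ i, Complex.normSq (a i) := (sq_nonneg _).trans (hA 0)
  obtain ⟨A, hAe⟩ : ∃ A, A = ∑ i, Complex.normSq (a i) := ⟨_, rfl⟩
  have ht0 : 0 ≤ ‖z‖ := norm_nonneg z
  have key : ‖z‖ ^ 2 < 5 + 4 * A := by
    by_contra hc
    rw [not_lt] at hc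
    rw [← hAe] at hA hA0
    have h2 : 2 ≤ ‖z‖ := by nlinarith
    have h3 : ∀ i, ‖a i‖ ≤ ‖z‖ / 2 := fun i => by
      have := hA i
      refine abs_le_of_sq_le_sq' (by nlinarith) (by linarith) |>.2
    have h4 : z ^ 6 = -∑ i : Fin 6, a i * z ^ (i : ℕ) := eq_neg_of_add_eq_zero_left h
    have h5 : ‖z‖ ^ 6 ≤ ∑ i : Fin 6, ‖z‖ / 2 * ‖z‖ ^ (i : ℕ) := by
      rw [← norm_pow, h4, norm_neg]
      refine (norm_sum_le _ _).trans (Finset.sum_le_sum fun i _ => ?_)
      rw [norm_mul, norm_pow]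
      exact mul_le_mul_of_nonneg_right (h3 i) (pow_nonneg ht0 _)
    rw [Fin.sum_univ_six] at h5
    change ‖z‖ ^ 6 ≤ ‖z‖ / 2 * ‖z‖ ^ 0 + ‖z‖ / 2 * ‖z‖ ^ 1 + ‖z‖ / 2 * ‖z‖ ^ 2 +
      ‖z‖ / 2 * ‖z‖ ^ 3 + ‖z‖ / 2 * ‖z‖ ^ 4 + ‖z‖ / 2 * ‖z‖ ^ 5 at h5
    generalize ‖z‖ = t at *
    have h6 : 0 ≤ t - 2 := by linarith
    have k1 := mul_nonneg (pow_nonneg ht0 1) h6
    have k2 := mul_nonneg (pow_nonneg ht0 2) h6
    have k3 := mul_nonneg (pow_nonneg ht0 3) h6
    have k4 := mul_nonneg (pow_nonneg ht0 4) h6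
    have k5 := mul_nonneg (pow_nonneg ht0 5) h6
    nlinarith
  have e : (pt4 false z v).1 = ((1 / (1 + ‖z‖ ^ 2) : ℝ) : ℂ) := by
    change 1 / (1 + z * conj z) = _
    rw [Complex.mul_conj, Complex.normSq_eq_norm_sq]
    push_cast
    rfl
  refine expNegInvGlue.pos_of_pos ?_
  rw [e, Complex.ofReal_re, ← hAe, sub_pos, one_div_mul_eq_div, lt_div_iff₀ (by positivity)]
  linarith

/-! ### Projectors -/

theorem conj_n2 (w : ℂ × ℂ) : conj (n2 w) = n2 w := by
  rw [n2_eq, Complex.conj_ofReal]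

theorem pr1_apply (r : ℝ) (w w0 : ℂ × ℂ) :
    (r • pr1 w).1 * w0.1 + (r • pr1 w).2.1 * w0.2 =
      r * (n2 w)⁻¹ * (conj w.1 * w0.1 + conj w.2 * w0.2) * w.1 ∧
    conj (r • pr1 w).2.1 * w0.1 + (r • pr1 w).2.2 * w0.2 =
      r * (n2 w)⁻¹ * (conj w.1 * w0.1 + conj w.2 * w0.2) * w.2 := by
  simp only [pr1, q2, Prod.smul_fst, Prod.smul_snd, smul_eq_mul, Complex.real_smul, map_mul,
    map_inv₀, conj_n2, Complex.conj_ofReal, Complex.conj_conj]
  constructor <;> ring

/-! ### A double root is not simple -/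

theorem sx1_node (q : (Fin 3 → ℂ) × (Fin 3 → ℂ)) (k : Fin 3) (h : q.2 k = 0) :
    sx (Psi q) (q.1 k) = 0 ∧ sx1 (Psi q) (q.1 k) = 0 := by
  constructor
  · rw [sx_Psi]
    exact Finset.prod_eq_zero (Finset.mem_univ k) (by simp [h])
  · rw [← H375.eval_PA1, PA_Psi, ← Finset.mul_prod_erase _ _ (Finset.mem_univ k),
      Polynomial.derivative_mul, Polynomial.eval_add, Polynomial.eval_mul, Polynomial.eval_mul,
      eval_qf1, eval_qf, h]
    simp

/-! ### Marks of a given rank, gaps -/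

theorem exists_rank (R : Region) (k : Fin 3) {i : ℕ} (hi : i < R.n k) :
    ∃ j, R.pl j = Sum.inl k ∧ R.rk j = i := by
  have h := Finset.surj_on_of_inj_on_of_card_le
    (s := Finset.univ.filter fun y => R.pl y = Sum.inl k) (t := Finset.range (R.n k))
    (fun j _ => R.rk j)
    (fun j hj => Finset.mem_range.2 (R.rk_lt j k (Finset.mem_filter.1 hj).2))
    (fun a b ha hb e => R.rk_inj a b k (Finset.mem_filter.1 ha).2 (Finset.mem_filter.1 hb).2 e)
    (by rw [Finset.card_range]; exact le_rfl) i (Finset.mem_range.2 hi)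
  obtain ⟨j, hj, e⟩ := h
  exact ⟨j, (Finset.mem_filter.1 hj).2, e.symm⟩

/-- The mark of rank `i` in the neck `k`. -/
def mkr (R : Region) (k : Fin 3) (i : ℕ) : L :=
  Classical.epsilon fun j => R.pl j = Sum.inl k ∧ R.rk j = i

theorem mkr_spec (R : Region) (k : Fin 3) {i : ℕ} (hi : i < R.n k) :
    R.pl (mkr R k i) = Sum.inl k ∧ R.rk (mkr R k i) = i :=
  Classical.epsilon_spec (exists_rank R k hi)

theorem mkr_rk {R : Region} {k : Fin 3} {j : L} (hj : R.pl j = Sum.inl k) :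
    mkr R k (R.rk j) = j :=
  R.rk_inj _ _ k (mkr_spec R k (R.rk_lt j k hj)).1 hj (mkr_spec R k (R.rk_lt j k hj)).2

theorem prod_one {n : ℕ} (f : Fin (n + 1) → ℂ) (P : ℕ → Prop) [DecidablePred P] (g : Fin (n + 1))
    (h : ∀ g' : Fin (n + 1), P g' ↔ g' = g) :
    ∏ g' : Fin (n + 1), (if P g' then f g' else 1) = f g := by
  rw [Finset.prod_eq_single g (fun b _ hb => if_neg fun e => hb ((h b).1 e)) (by simp),
    if_pos ((h g).2 rfl)]

theorem prod_tel (y : ℕ → ℂ) (h0 : y 0 = 1) {n i : ℕ} (hi : i ≤ n) (hy : ∀ l ≤ i, y l ≠ 0) :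
    ∏ g : Fin (n + 1), (if (g : ℕ) ≤ i then y (g + 1) / y g else 1) = y (i + 1) := by
  rw [Fin.prod_univ_eq_prod_range (fun g => if g ≤ i then y (g + 1) / y g else 1) (n + 1),
    ← Finset.prod_filter]
  have e : (Finset.range (n + 1)).filter (fun g => g ≤ i) = Finset.range (i + 1) := by
    ext g
    simp only [Finset.mem_filter, Finset.mem_range]
    omega
  rw [e]
  clear e hi
  induction i with
  | zero => simp [h0]
  | succ i ih =>
    rw [Finset.prod_range_succ, ih fun l hl => hy l (by omega),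
      mul_div_cancel₀ _ (hy _ le_rfl)]

/-- Gaps with given products. -/
theorem exists_gaps (R : Region) (ε : Fin 3 → ℂ) (X : L → Fin 3 → ℂ)
    (hX : ∀ j k, R.pl j = Sum.inl k → X j k ≠ 0) (z : R.Cm → ℂ) :
    ∃ γ : R.Gap → ℂ, R.eps (γ, z) = ε ∧
      ∀ j k, R.pl j = Sum.inl k → R.XX (γ, z) k (R.rk j) = X j k := by
  obtain ⟨y, hy⟩ : ∃ y : Fin 3 → ℕ → ℂ, y = fun k l =>
      if l = 0 then 1 else if l ≤ R.n k then X (mkr R k (l - 1)) k else ε k := ⟨_, rfl⟩
  have h0 : ∀ k, y k 0 = 1 := fun k => by simp [hy]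
  have h1 : ∀ k, ∀ l ≤ R.n k, y k l ≠ 0 := by
    intro k l hl
    rw [hy]
    simp only []
    split_ifs with h
    · exact one_ne_zero
    · exact hX _ k (mkr_spec R k (by omega)).1
  refine ⟨fun g => y g.1 (g.2 + 1) / y g.1 g.2, funext fun k => ?_, fun j k hj => ?_⟩
  · have h2 := prod_tel (y k) (h0 k) (le_refl (R.n k)) (h1 k)
    have h3 : y k (R.n k + 1) = ε k := by simp [hy]
    rw [h3] at h2
    refine Eq.trans (Finset.prod_congr rfl fun g _ => ?_) h2
    rw [if_pos (Nat.lt_succ_iff.1 g.2)]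
  · have h2 : R.rk j < R.n k := R.rk_lt j k hj
    have h3 := prod_tel (y k) (h0 k) h2.le fun l hl => h1 k l (by omega)
    have h4 : y k (R.rk j + 1) = X j k := by
      rw [hy]
      simp only []
      rw [if_neg (by omega), if_pos (by omega), Nat.add_sub_cancel, mkr_rk hj]
    rw [h4] at h3
    exact h3

end Vale.Agent.P273SW

end
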